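import Vale.Agent.P220Z.Rig.Defs

/-!
# P220, Theorem B: the model free interface

`m` is a path of equivariant self-maps of the domain that does not depend on the base point, `H`
continues it to the constant map `0`; `ι l` parametrises the points fixed by `t ^ l s`.
-/

open Set Topology
open scoped ContDiff RealInnerProductSpace

namespace Vale.Agent.P220Z.Tb

open Vale.Agent.P220Z.Def Vale.Agent.P220Z.Rig

/-- the model of a stratum: `(w, p, c)` -/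
abbrev U1 : Type := ℂ × (ℝ × ℝ) × ℂ

/-- rotation of the last coordinate by `ζ ^ j` -/
noncomputable def rot1 (j : ZMod 5) : U1 →L[ℝ] U1 :=
  (ContinuousLinearMap.id ℝ ℂ).prodMap ((ContinuousLinearMap.id ℝ (ℝ × ℝ)).prodMap
    ((om j : ℂ) • ContinuousLinearMap.id ℝ ℂ))

@[simp] theorem rot1_apply (j : ZMod 5) (z : U1) :
    rot1 j z = (z.1, z.2.1, (om j : ℂ) * z.2.2) := rfl

/-- the component on which the rotation acts -/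
def prp (z : U1) : U1 := (0, 0, z.2.2)

/-- the rotation by a tenth of a turn -/
noncomputable def e10 : ℂ := Complex.exp (Real.pi / 5 * Complex.I)

variable {U : Type} [NormedAddCommGroup U] [InnerProductSpace ℝ U] [FiniteDimensional ℝ U]

/-- one short step against the gradient -/
noncomputable def stp (φ : U → ℝ) (t : ℝ) (x : U) : U := x - t • gradient φ x

/-- the domain of the loop on a stratum -/
def sdom (φ : U → ℝ) (ι : U1 →L[ℝ] U) : Set (ℝ × U1) :=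
  {y | y.1 ∈ Ioo (0 : ℝ) 1 ∧ φ (ι y.2) < 0 ∧ y.2.2.2 ≠ 0}

/-- the loop on a stratum: its zeros are the solutions of `m (τ, z) = g ^ j z`, up to `t`, `d` -/
noncomputable def smap (φ : U → ℝ) (m : ℝ × U → U) (ι : U1 →L[ℝ] U) (pr : U →L[ℝ] U1)
    (j : ZMod 5) (t d : ℝ) (y : ℝ × U1) : U1 :=
  y.2 - rot1 (-j) (pr (stp φ t (m (y.1, ι y.2)))) + (d / ‖ι (prp y.2)‖) • prp y.2

/-- The maps. -/
structure IsHs (ρ : G5 →* (U ≃ₗᵢ[ℝ] U)) (φ : U → ℝ) (m : ℝ × U → U) (H : ℝ × EB5 × U → U)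
    (wc : U →L[ℝ] ℂ) : Prop where
  smooth : ContDiff ℝ ∞ φ
  bdd : ∃ R, ∀ x, R ≤ ‖x‖ → 0 < φ x
  reg : ∀ x, φ x = 0 → fderiv ℝ φ x ≠ 0
  inv : ∀ g x, φ (ρ g x) = φ x
  zero : φ 0 ≤ 0
  mc : ContinuousOn m {y | y.1 ∈ Icc (0 : ℝ) 1 ∧ φ y.2 ≤ 0}
  mm : ∀ τ ∈ Icc (0 : ℝ) 1, ∀ x, φ x ≤ 0 → φ (m (τ, x)) ≤ 0
  me : ∀ g, ∀ τ ∈ Icc (0 : ℝ) 1, ∀ x, φ x ≤ 0 → m (τ, ρ g x) = ρ g (m (τ, x))
  m0 : ∀ x, φ x ≤ 0 → m (0, x) = x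
  hc : ContinuousOn H {y | y.1 ∈ Icc (0 : ℝ) 1 ∧ y.2.1 ∈ B5 ∧ φ y.2.2 ≤ 0}
  hm : ∀ u ∈ Icc (0 : ℝ) 1, ∀ b ∈ B5, ∀ x, φ x ≤ 0 → φ (H (u, b, x)) ≤ 0
  he : ∀ g, ∀ u ∈ Icc (0 : ℝ) 1, ∀ b ∈ B5, ∀ x, φ x ≤ 0 →
    H (u, β5 g b, ρ g x) = ρ g (H (u, b, x))
  h0 : ∀ b ∈ B5, ∀ x, φ x ≤ 0 → H (0, b, x) = m (1, x)
  h1 : ∀ b ∈ B5, ∀ x, φ x ≤ 0 → H (1, b, x) = 0
  key : ∀ u ∈ Icc (0 : ℝ) 1, ∀ b ∈ B5, ∀ x, φ x ≤ 0 →
    ∃ c ∈ Icc (0 : ℝ) 1, wc (H (u, b, x)) = c * e10 * wc x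
  axis : ∀ u ∈ Icc (0 : ℝ) 1, ∀ b ∈ B5, ∀ x, φ x ≤ 0 → ‖wc x‖ ≤ 1 / 8 → H (u, b, x) = 0

/-- The strata: `ι l` parametrises the points fixed by `t ^ l s`, and `t` acts by `rot1 1`. -/
structure IsSt (ρ : G5 →* (U ≃ₗᵢ[ℝ] U)) (ι : ZMod 5 → U1 →L[ℝ] U) (pr : ZMod 5 → U →L[ℝ] U1) :
    Prop where
  left : ∀ l z, pr l (ι l z) = z
  fix : ∀ l x, x ∈ range (ι l) ↔ ρ (Multiplicative.ofAdd (l, 1)) x = x
  act : ∀ l z, ρ (Multiplicative.ofAdd (1, 0)) (ι l z) = ι l (rot1 1 z)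

/-- The winding numbers on the strata, for small `t` and `d`. -/
def IsWn (w : WFun) (φ : U → ℝ) (m : ℝ × U → U) (ι : ZMod 5 → U1 →L[ℝ] U)
    (pr : ZMod 5 → U →L[ℝ] U1) (cc : ZMod 5 → ZMod 5 → ZMod 5) : Prop :=
  ∀ l j : ZMod 5, l ≠ 0 → j ≠ 0 → ∃ t₁ > 0, ∀ t ∈ Ioo (0 : ℝ) t₁, ∃ d₁ > 0, ∀ d ∈ Ioo (0 : ℝ) d₁,
    IsLp (rot1 1) (sdom φ (ι l)) (smap φ m (ι l) (pr l) j t d) →
    w U1 (rot1 1) (sdom φ (ι l)) (smap φ m (ι l) (pr l) j t d) = cc l j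

/-- The reduction of Theorem B. -/
def StB0 : Prop :=
  ∀ (n : NFun) (w : WFun) (c : ZMod 5), c ≠ 0 → IsN n → IsW w → Loc n w c →
    ∀ (U : Type) [NormedAddCommGroup U] [InnerProductSpace ℝ U] [FiniteDimensional ℝ U]
      (ρ : G5 →* (U ≃ₗᵢ[ℝ] U)) (φ : U → ℝ) (m : ℝ × U → U) (H : ℝ × EB5 × U → U)
      (wc : U →L[ℝ] ℂ) (ι : ZMod 5 → U1 →L[ℝ] U) (pr : ZMod 5 → U →L[ℝ] U1)
      (cc : ZMod 5 → ZMod 5 → ZMod 5) (r : EB5 × U → U),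
      IsHs ρ φ m H wc → IsSt ρ ι pr → IsWn w φ m ι pr cc → IsRetr ρ φ r →
      (∑ l : ZMod 5, ∑ j : ZMod 5, if l ≠ 0 then j ^ 2 * cc l j else 0) ≠ 0 → ¬ AZero n ρ φ

/-- Powers of a label: `s'` and `s` act on the same loop, `ε` is a label for `s`, its power is a
label for `s'`. -/
def StPow : Prop :=
  ∀ (w : WFun), IsW w → ∀ (V : Type) [NormedAddCommGroup V] [NormedSpace ℝ V]
    [FiniteDimensional ℝ V] (s s' : V →L[ℝ] V) (O : Set (ℝ × V)) (Φ : ℝ × V → V)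
    (ε : ℝ × V → ℂ) (k : ℕ), 0 < k → IsLp s O Φ → IsLp s' O Φ → ContinuousOn ε O →
    (∀ t z, (t, z) ∈ O → ε (t, s z) = om 1 * ε (t, z)) →
    (∀ t z, (t, z) ∈ O → ε (t, s' z) ^ k = om 1 * ε (t, z) ^ k) →
    (∀ y ∈ O, Φ y = 0 → ε y ≠ 0) → w V s' O Φ = k * w V s O Φ

/-- An equivariant family of retractions exists for a domain that is joined to the ball; here in
the form of a contraction. -/
def StRetr : Prop :=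
  ∀ (U : Type) [NormedAddCommGroup U] [InnerProductSpace ℝ U] [FiniteDimensional ℝ U]
    (ρ : G5 →* (U ≃ₗᵢ[ℝ] U)) (φ : U → ℝ) (m : ℝ × U → U) (H : ℝ × EB5 × U → U)
    (wc : U →L[ℝ] ℂ), IsHs ρ φ m H wc → ∃ r, IsRetr ρ φ r

/-- the domain of the problem that does not depend on the base point -/
def mdom (φ : U → ℝ) : Set (ℝ × X5 U) :=
  {y | y.1 ∈ Ioo (0 : ℝ) 1 ∧ (∀ j, φ (y.2 j) < 0) ∧ perp y.2 ≠ 0}

/-- its map, for the power `k` of the shift -/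
noncomputable def mmap (φ : U → ℝ) (m : ℝ × U → U) (k : ZMod 5) (t d : ℝ) (y : ℝ × X5 U) : X5 U :=
  y.2 - (fun j => stp φ t (m (y.1, y.2 (j - k)))) + (d / ‖perp y.2‖) • perp y.2

/-- it is a problem -/
def MPr (ρ : G5 →* (U ≃ₗᵢ[ℝ] U)) (φ : U → ℝ) (m : ℝ × U → U) (k : ZMod 5) (t d : ℝ) : Prop :=
  IsPr (pi5 ρ) {y : ℝ × EB5 × X5 U | y.2.1 ∈ B5 ∧ (y.1, y.2.2) ∈ mdom φ}
    (fun y => mmap φ m k t d (y.1, y.2.2)) fun _ => 0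

/-- its count -/
noncomputable def mcnt (n : NFun) (ρ : G5 →* (U ≃ₗᵢ[ℝ] U)) (φ : U → ℝ) (m : ℝ × U → U)
    (k : ZMod 5) (t d : ℝ) : ZMod 5 :=
  n (X5 U) (pi5 ρ) {y : ℝ × EB5 × X5 U | y.2.1 ∈ B5 ∧ (y.1, y.2.2) ∈ mdom φ}
    (fun y => mmap φ m k t d (y.1, y.2.2)) fun _ => 0

/-- The squares: the invariant is a difference of two counts. -/
def StSq : Prop :=
  ∀ (n : NFun), IsN n →
    ∀ (U : Type) [NormedAddCommGroup U] [InnerProductSpace ℝ U] [FiniteDimensional ℝ U]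
      (ρ : G5 →* (U ≃ₗᵢ[ℝ] U)) (φ : U → ℝ) (m : ℝ × U → U) (H : ℝ × EB5 × U → U)
      (wc : U →L[ℝ] ℂ) (r : EB5 × U → U), IsHs ρ φ m H wc → IsRetr ρ φ r →
      IsFld ρ φ (fun y => gradient φ y.2) ∧ ∃ t₂ > 0, ∀ t ∈ Ioo (0 : ℝ) t₂, ∃ d₂ > 0,
        ∀ d ∈ Ioo (0 : ℝ) d₂, MPr ρ φ m 1 t d ∧ MPr ρ φ m 2 t d ∧
          aInv n ρ d (push t (fun y => gradient φ y.2) r) =
            mcnt n ρ φ m 1 t d - mcnt n ρ φ m 2 t d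

/-- Localisation of the counts. -/
def StLc : Prop :=
  ∀ (n : NFun) (w : WFun) (c : ZMod 5), IsW w → Loc n w c →
    ∀ (U : Type) [NormedAddCommGroup U] [InnerProductSpace ℝ U] [FiniteDimensional ℝ U]
      (ρ : G5 →* (U ≃ₗᵢ[ℝ] U)) (φ : U → ℝ) (m : ℝ × U → U) (H : ℝ × EB5 × U → U)
      (wc : U →L[ℝ] ℂ) (ι : ZMod 5 → U1 →L[ℝ] U) (pr : ZMod 5 → U →L[ℝ] U1)
      (cc : ZMod 5 → ZMod 5 → ZMod 5) (k : ZMod 5) (t d : ℝ), k ≠ 0 → 0 < d →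
      IsHs ρ φ m H wc → IsSt ρ ι pr → MPr ρ φ m k t d →
      (∀ l j : ZMod 5, l ≠ 0 → j ≠ 0 →
        IsLp (rot1 1) (sdom φ (ι l)) (smap φ m (ι l) (pr l) j t d) →
        w U1 (rot1 1) (sdom φ (ι l)) (smap φ m (ι l) (pr l) j t d) = cc l j) →
      mcnt n ρ φ m k t d =
        -c * k ^ 2 * ∑ l : ZMod 5, ∑ j : ZMod 5, if l ≠ 0 then j ^ 2 * cc l j else 0

end Vale.Agent.P220Z.Tb
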