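import Vale.Agent.P220Z.Tb.Defs
import Vale.Agent.P220Z.Rig.Ful
import Vale.Agent.P220Z.Def.IsN1

/-!
# P220, Theorem B: localisation of the counts
-/

open Set Topology
open scoped ContDiff RealInnerProductSpace

namespace Vale.Agent.P220Z.Tb

open Vale.Agent.P220Z.Def Vale.Agent.P220Z.Rig

namespace LcA

theorem rot1_rot1 (i j : ZMod 5) (z : U1) : rot1 i (rot1 j z) = rot1 (i + j) z := by
  simp only [rot1_apply, om_add, mul_assoc]

theorem rot1_zero (z : U1) : rot1 0 z = z := by simp only [rot1_apply, om_zero, one_mul]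

theorem rot1_pow (i : ZMod 5) (n : ℕ) (z : U1) : (rot1 i ^ n) z = rot1 (n * i) z := by
  induction n generalizing z with
  | zero => simp [om_zero]
  | succ n ih => rw [pow_succ, mul_apply_eq_comp, ih, rot1_rot1, Nat.cast_succ, add_mul, one_mul]

theorem om_pow_nat (x : ZMod 5) (n : ℕ) : (om x : ℂ) ^ n = om (n * x) := by
  induction n with
  | zero => simp [om_zero]
  | succ n ih => rw [pow_succ, ih, ← om_add, Nat.cast_succ, add_mul, one_mul]

theorem sum_om {u : ZMod 5} (hu : u ≠ 0) : ∑ j : ZMod 5, (om (j * u) : ℂ) = 0 := by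
  have h1 : (om u : ℂ) * ∑ j : ZMod 5, (om (j * u) : ℂ) = ∑ j : ZMod 5, (om (j * u) : ℂ) := by
    rw [Finset.mul_sum]
    exact Fintype.sum_equiv (Equiv.addRight 1) _ _ fun j => by
      rw [← om_add, Equiv.coe_addRight, add_mul, one_mul, add_comm]
  by_contra h
  exact hu (om_eq_one (mul_right_cancel₀ h (h1.trans (one_mul _).symm)))

variable {U : Type} [NormedAddCommGroup U] [InnerProductSpace ℝ U] [FiniteDimensional ℝ U]
  {ρ : G5 →* (U ≃ₗᵢ[ℝ] U)} {φ : U → ℝ} {m : ℝ × U → U} {H : ℝ × EB5 × U → U} {wc : U →L[ℝ] ℂ}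
  {ι : ZMod 5 → U1 →L[ℝ] U} {pr : ZMod 5 → U →L[ℝ] U1}

theorem grad_eq (hs : Differentiable ℝ φ) (hi : ∀ g x, φ (ρ g x) = φ x) (g : G5) (x : U) :
    gradient φ (ρ g x) = ρ g (gradient φ x) := by
  refine ext_inner_right ℝ fun v => ?_
  obtain ⟨u, rfl⟩ := (ρ g).surjective v
  have h1 := ((hs (ρ g x)).hasFDerivAt.comp x
    ((ρ g).toContinuousLinearEquiv.hasFDerivAt (x := x))).fderiv
  have h2 : φ ∘ (ρ g) = φ := funext fun y => hi g y
  rw [h2] at h1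
  rw [LinearIsometryEquiv.inner_map_map, inner_gradient_left, inner_gradient_left, h1]
  rfl

omit [FiniteDimensional ℝ U] in
theorem act_i (hS : IsSt ρ ι pr) (l i : ZMod 5) (z : U1) :
    ρ (Multiplicative.ofAdd (i, 0)) (ι l z) = ι l (rot1 i z) := by
  have h : ∀ n : ℕ, ρ (Multiplicative.ofAdd ((n : ZMod 5), 0)) (ι l z) = ι l (rot1 n z) := by
    intro n
    induction n with
    | zero => simp [rot1_zero, -rot1_apply, ← Prod.zero_eq_mk]
    | succ n ih =>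
      have h1 : (Multiplicative.ofAdd (((n + 1 : ℕ) : ZMod 5), 0) : G5) =
          Multiplicative.ofAdd (1, 0) * Multiplicative.ofAdd ((n : ZMod 5), 0) := by
        rw [← ofAdd_add, Prod.mk_add_mk, add_zero, Nat.cast_succ, add_comm]
      rw [h1, map_mul, LinearIsometryEquiv.coe_mul, Function.comp_apply, ih, hS.act, rot1_rot1,
        Nat.cast_succ, add_comm]
  have := h i.val
  rwa [ZMod.natCast_zmod_val] at this

omit [FiniteDimensional ℝ U] in
theorem fix_i {l : ZMod 5} {x : U} (hx : ρ (Multiplicative.ofAdd (l, 1)) x = x) (i : ZMod 5) :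
    ρ (Multiplicative.ofAdd (i * l, i)) x = x := by
  have h : ∀ n : ℕ, ρ (Multiplicative.ofAdd ((n : ZMod 5) * l, (n : ZMod 5))) x = x := by
    intro n
    induction n with
    | zero => simp [← Prod.zero_eq_mk]
    | succ n ih =>
      have h1 : (Multiplicative.ofAdd (((n + 1 : ℕ) : ZMod 5) * l, ((n + 1 : ℕ) : ZMod 5)) : G5) =
          Multiplicative.ofAdd ((n : ZMod 5) * l, (n : ZMod 5)) * Multiplicative.ofAdd (l, 1) := by
        rw [← ofAdd_add, Prod.mk_add_mk, Nat.cast_succ, add_mul, one_mul]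
      rw [h1, map_mul, LinearIsometryEquiv.coe_mul, Function.comp_apply, hx, ih]
  have := h i.val
  rwa [ZMod.natCast_zmod_val] at this

omit [FiniteDimensional ℝ U] in
theorem act_g (hS : IsSt ρ ι pr) (l : ZMod 5) (g : G5) (z : U1) :
    ρ g (ι l z) = ι l (rot1 (g.toAdd.1 - g.toAdd.2 * l) z) := by
  have h1 : g = Multiplicative.ofAdd (g.toAdd.1 - g.toAdd.2 * l, 0) *
      Multiplicative.ofAdd (g.toAdd.2 * l, g.toAdd.2) := by
    rw [← ofAdd_add, Prod.mk_add_mk, sub_add_cancel, zero_add]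
    rfl
  conv_lhs => rw [h1]
  rw [map_mul, LinearIsometryEquiv.coe_mul, Function.comp_apply,
    fix_i ((hS.fix l _).1 ⟨z, rfl⟩), act_i hS]

/-- the fixed part of a graph -/
noncomputable def emb (ι : U1 →L[ℝ] U) (u : ZMod 5) : U1 →L[ℝ] X5 U :=
  ContinuousLinearMap.pi fun j => ι.comp (rot1 (j * u))

omit [FiniteDimensional ℝ U] in
theorem emb_apply (ι : U1 →L[ℝ] U) (u : ZMod 5) (z : U1) (j : ZMod 5) :
    emb ι u z j = ι (rot1 (j * u) z) := rfl

omit [FiniteDimensional ℝ U] in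
theorem emb_left (hS : IsSt ρ ι pr) (l u : ZMod 5) (z : U1) : pr l (emb (ι l) u z 0) = z := by
  rw [emb_apply, zero_mul, rot1_zero, hS.left]

omit [FiniteDimensional ℝ U] in
theorem perp_emb (ι : U1 →L[ℝ] U) {u : ZMod 5} (hu : u ≠ 0) (z : U1) :
    perp (emb ι u z) = emb ι u (prp z) := by
  have h1 : ∑ j : ZMod 5, rot1 (j * u) z = (5 : ℝ) • ((z.1, z.2.1, 0) : U1) := by
    refine Prod.ext ?_ (Prod.ext ?_ ?_)
    · simp [Prod.fst_sum]
    · simp [Prod.fst_sum, Prod.snd_sum, ← Nat.cast_smul_eq_nsmul ℝ]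
    · simp [Prod.snd_sum, ← Finset.sum_mul, sum_om hu]
  ext j
  rw [perp_apply, avg_apply]
  simp only [emb_apply]
  rw [← map_sum, h1, map_smul, smul_smul, inv_mul_cancel₀ (by norm_num), one_smul, ← map_sub]
  simp [prp]

omit [FiniteDimensional ℝ U] in
theorem norm_emb (hS : IsSt ρ ι pr) (l u : ZMod 5) (z : U1) : ‖emb (ι l) u z‖ = ‖ι l z‖ := by
  have h : ∀ j, ‖emb (ι l) u z j‖ = ‖ι l z‖ := fun j => by
    rw [emb_apply, ← act_i hS, LinearIsometryEquiv.norm_map]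
  exact le_antisymm ((pi_norm_le_iff_of_nonneg (norm_nonneg _)).2 fun j => (h j).le)
    ((h 0).symm.le.trans (norm_le_pi_norm _ 0))

omit [FiniteDimensional ℝ U] in
theorem dom_eq (hH : IsHs ρ φ m H wc) (hS : IsSt ρ ι pr) (l : ZMod 5) {u : ZMod 5} (hu : u ≠ 0) :
    {y : ℝ × U1 | (y.1, emb (ι l) u y.2) ∈ mdom φ} = sdom φ (ι l) := by
  ext y
  refine and_congr_right fun _ => and_congr ?_ ?_
  · simp only [emb_apply, ← act_i hS, hH.inv, forall_const]
  · show perp (emb (ι l) u y.2) ≠ 0 ↔ _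
    rw [perp_emb _ hu]
    refine not_congr ⟨fun h => ?_, fun h => ?_⟩
    · have h1 := emb_left hS l u (prp y.2)
      rw [h, Pi.zero_apply, map_zero] at h1
      exact (congrArg (fun z : U1 => z.2.2) h1).symm
    · rw [prp, h]
      exact map_zero _

theorem map_eq (hH : IsHs ρ φ m H wc) (hS : IsSt ρ ι pr) (l k : ZMod 5) {u : ZMod 5} (hu : u ≠ 0)
    (t d : ℝ) {y : ℝ × U1} (hy : y ∈ sdom φ (ι l)) :
    emb (ι l) u (smap φ m (ι l) (pr l) (k * u) t d y) = mmap φ m k t d (y.1, emb (ι l) u y.2) := by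
  have h1 : ∀ g, stp φ t (m (y.1, ρ g (ι l y.2))) = ρ g (stp φ t (m (y.1, ι l y.2))) := fun g => by
    rw [hH.me g _ (Ioo_subset_Icc_self hy.1) _ hy.2.1.le, stp, stp,
      grad_eq (hH.smooth.differentiable (by simp)) hH.inv, map_sub, map_smul]
  obtain ⟨v, hv⟩ : stp φ t (m (y.1, ι l y.2)) ∈ range (ι l) := by
    rw [hS.fix, ← h1, (hS.fix l _).1 ⟨y.2, rfl⟩]
  rw [smap, mmap, map_add, map_sub, map_smul, perp_emb _ hu, norm_emb hS]
  congr 2
  ext j
  show _ = stp φ t (m (y.1, emb (ι l) u y.2 (j - k)))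
  rw [emb_apply, emb_apply, ← act_i hS l ((j - k) * u), h1, ← hv, hS.left, act_i hS, rot1_rot1,
    sub_mul, sub_eq_add_neg]

theorem isLp (hH : IsHs ρ φ m H wc) (hS : IsSt ρ ι pr) (l : ZMod 5) {k : ZMod 5} {u : ZMod 5}
    (hu : u ≠ 0) {t d : ℝ} (h : MPr ρ φ m k t d) {i : ZMod 5} (hi : i ≠ 0) :
    IsLp (rot1 i) (sdom φ (ι l)) (smap φ m (ι l) (pr l) (k * u) t d) := by
  obtain ⟨b, hb⟩ : B5.Nonempty := ⟨mkB ![1, 0] (Pi.single 0 1), by
    constructor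
    · simp [mkB, EuclideanSpace.norm_eq]
    · exact (PiLp.norm_single 2 (fun _ : Fin 9 => ℂ) 0 1).trans norm_one⟩
  have hinj : Function.Injective (emb (ι l) u) :=
    Function.LeftInverse.injective (g := fun x : X5 U => pr l (x 0)) (emb_left hS l u)
  have hd : ∀ y, y ∈ sdom φ (ι l) ↔ (y.1, emb (ι l) u y.2) ∈ mdom φ := fun y => by
    rw [← dom_eq hH hS l hu]
    rfl
  have hf : Topology.IsClosedEmbedding fun y : ℝ × U1 => (y.1, b, emb (ι l) u y.2) :=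
    Function.LeftInverse.isClosedEmbedding
      (f := fun w : ℝ × EB5 × X5 U => (w.1, pr l (w.2.2 0)))
      (fun y => Prod.ext rfl (emb_left hS l u y.2)) (by fun_prop) (by fun_prop)
  have he : ∀ z, emb (ι l) u (rot1 i z) =
      pi5 ρ (Multiplicative.ofAdd (i, 0), 1) (emb (ι l) u z) := fun z => by
    ext j
    rw [pi5_apply, emb_apply, emb_apply, act_i hS, rot1_rot1, rot1_rot1, toAdd_one, sub_zero,
      add_comm]
  have hφ := hH.smooth.continuous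
  have hm : ∀ p z, (p, z) ∈ sdom φ (ι l) → (p, rot1 i z) ∈ sdom φ (ι l) := fun p z hz => by
    rw [hd, he]
    exact (h.mem _ p b _ ⟨hb, (hd _).1 hz⟩).2
  refine ⟨ContinuousLinearMap.ext fun z => ?_, ?_, ?_, hm, fun p z hz => hinj ?_,
    fun y hy h0 => hi (om_eq_one (mul_right_cancel₀ hy.2.2 ?_)), ?_⟩
  · rw [rot1_pow, show ((5 : ℕ) : ZMod 5) = 0 from rfl, zero_mul, rot1_zero]
    rfl
  · exact (isOpen_Ioo.preimage continuous_fst).inter
      ((isOpen_lt (f := fun y : ℝ × U1 => φ (ι l y.2)) (by fun_prop) continuous_const).inter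
        (isOpen_ne_fun (f := fun y : ℝ × U1 => y.2.2.2) (by fun_prop) continuous_const))
  · have h1 := h.cont.comp hf.continuous.continuousOn
      (s := sdom φ (ι l)) fun y hy => ⟨hb, (hd y).1 hy⟩
    refine (((pr l).continuous.comp (continuous_apply 0)).comp_continuousOn h1).congr
      fun y hy => ?_
    exact (emb_left hS l u _).symm.trans (by rw [map_eq hH hS l k hu t d hy]; rfl)
  · rw [map_eq hH hS l k hu t d (hm p z hz), he, he, map_eq hH hS l k hu t d hz]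
    exact h.eq (Multiplicative.ofAdd (i, 0), 1) p b _ ⟨hb, (hd _).1 hz⟩
  · rw [one_mul]
    exact congrArg (fun z : U1 => z.2.2) h0
  · refine cpt_of_iff (hf.isCompact_preimage h.cpt) fun y => ⟨fun hy => ?_, fun hy => ?_⟩
    · refine ⟨⟨hb, (hd y).1 hy.1⟩, ?_, zero_mem_RR⟩
      show mmap φ m k t d (y.1, emb (ι l) u y.2) = 0
      rw [← map_eq hH hS l k hu t d hy.1, hy.2, map_zero]
    · have h1 := (hd y).2 hy.1.2
      exact ⟨h1, hinj (by rw [map_eq hH hS l k hu t d h1, map_zero]; exact hy.2.1)⟩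

theorem isFix (hH : IsHs ρ φ m H wc) (hS : IsSt ρ ι pr) {a : ZMod 5} (b k : ZMod 5) (ha : a ≠ 0)
    (t d : ℝ) :
    IsFix (pi5 ρ) (mdom φ) (mmap φ m k t d) a b (emb (ι (-b * a⁻¹)) a⁻¹) (rot1 (-a⁻¹))
      (smap φ m (ι (-b * a⁻¹)) (pr (-b * a⁻¹)) (k * a⁻¹) t d) := by
  have : Fact (Nat.Prime 5) := ⟨by norm_num⟩
  have hu : a⁻¹ ≠ 0 := inv_ne_zero ha
  refine ⟨Function.LeftInverse.injective (g := fun x : X5 U => pr (-b * a⁻¹) (x 0))
    (emb_left hS _ _),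
    fun x => ⟨?_, fun hx => ?_⟩, fun z => ?_, fun τ z hz => ?_⟩
  · rintro ⟨z, rfl⟩ g
    ext j
    rw [pi5_apply, emb_apply, emb_apply, act_g hS, rot1_rot1]
    congr 2
    simp only [gr, toAdd_ofAdd]
    field_simp
    ring_nf
  · have h1 := congrFun (hx (Multiplicative.ofAdd (-b * a⁻¹, 1))) 0
    have h2 : a * (-b * a⁻¹) + b * 1 = 0 := by
      field_simp
      ring
    simp only [pi5_apply, gr, toAdd_ofAdd, h2, sub_zero] at h1
    obtain ⟨z, hz⟩ := (hS.fix _ _).2 h1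
    refine ⟨z, funext fun j => ?_⟩
    have h3 := congrFun (hx (Multiplicative.ofAdd (j * a⁻¹, 0))) j
    have h4 : j - (a * (j * a⁻¹) + b * 0) = 0 := by
      field_simp
      ring
    simp only [pi5_apply, gr, toAdd_ofAdd, h4] at h3
    rw [emb_apply, ← act_i hS, hz, h3]
  · ext j
    rw [pi5_sig, sh, emb_apply, emb_apply, rot1_rot1, sub_mul, one_mul, sub_eq_add_neg]
  · refine map_eq hH hS _ k hu t d (y := (τ, z)) ?_
    rw [← dom_eq hH hS _ hu]
    exact hz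

theorem sum_eq (cc : ZMod 5 → ZMod 5 → ZMod 5) {k : ZMod 5} (hk : k ≠ 0) :
    (∑ χ : ZMod 5 × ZMod 5, if χ.1 ≠ 0 ∧ χ.2 ≠ 0 then
      χ.1 * (-χ.1 * cc (-χ.2 * χ.1⁻¹) (k * χ.1⁻¹)) else 0) =
      -k ^ 2 * ∑ l : ZMod 5, ∑ j : ZMod 5, if l ≠ 0 then j ^ 2 * cc l j else 0 := by
  have h3 : ∀ a : ZMod 5, a ≠ 0 → a ^ 4 = 1 := by decide
  have : Fact (Nat.Prime 5) := ⟨by norm_num⟩
  have h1 : ∀ l j : ZMod 5, (if l ≠ 0 then j ^ 2 * cc l j else 0) =
      if j ≠ 0 ∧ l ≠ 0 then j ^ 2 * cc l j else 0 := fun l j => by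
    by_cases hj : j = 0 <;> simp [hj]
  simp only [h1]
  rw [Finset.sum_comm, ← Fintype.sum_prod_type', Finset.mul_sum, ← Finset.sum_filter]
  simp only [mul_ite, mul_zero]
  rw [← Finset.sum_filter]
  have h4 : ∀ a k : ZMod 5, a ≠ 0 → k ≠ 0 → a * -a = -k ^ 2 * (k * a⁻¹) ^ 2 := fun a k ha hk => by
    field_simp
    linear_combination h3 k hk - h3 a ha
  refine Finset.sum_nbij' (fun χ => (k * χ.1⁻¹, -χ.2 * χ.1⁻¹)) (fun p => (k * p.1⁻¹, -p.2 * (k * p.1⁻¹)))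
    (fun χ hχ => ?_) (fun χ hχ => ?_) (fun χ hχ => ?_) (fun χ hχ => ?_) fun χ hχ => ?_
  all_goals
    simp only [Finset.mem_filter, Finset.mem_univ, true_and] at hχ ⊢
    obtain ⟨a1, a2⟩ := hχ
  · simp [a1, a2, hk]
  · simp [a1, a2, hk]
  · refine Prod.ext ?_ ?_ <;> field_simp
  · refine Prod.ext ?_ ?_ <;> field_simp
  · rw [← mul_assoc, ← mul_assoc, h4 _ k a1 hk]

end LcA

open LcA in
theorem stLc (hp : StPow) : StLc := by
  intro n w c hw hl U _ _ _ ρ φ m H wc ι pr cc k t d hk _ hH hS hM hc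
  have : Fact (Nat.Prime 5) := ⟨by norm_num⟩
  have h1 := hl (X5 U) (pi5 ρ) (mdom φ) (mmap φ m k t d) (fun _ => 0) (fun _ => U1)
    (fun χ => emb (ι (-χ.2 * χ.1⁻¹)) χ.1⁻¹) (fun χ => rot1 (-χ.1⁻¹))
    (fun χ => smap φ m (ι (-χ.2 * χ.1⁻¹)) (pr (-χ.2 * χ.1⁻¹)) (k * χ.1⁻¹) t d) hM
    fun χ a1 _ => isFix hH hS χ.2 k a1 t d
  rw [mcnt, h1, neg_mul_comm, mul_assoc, ← sum_eq cc hk]
  refine congrArg (c * ·) (Finset.sum_congr rfl fun χ _ => if_ctx_congr Iff.rfl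
    (fun hχ => congrArg (χ.1 * ·) ?_) fun _ => rfl)
  have hu : χ.1⁻¹ ≠ 0 := inv_ne_zero hχ.1
  have h2 := isLp hH hS (-χ.2 * χ.1⁻¹) hu hM one_ne_zero
  rw [dom_eq hH hS _ hu, hp w hw U1 (rot1 1) _ _ _ (fun y => y.2.2.2) (-χ.1).val
    (ZMod.val_pos.2 (neg_ne_zero.2 hχ.1)) h2 (isLp hH hS _ hu hM (neg_ne_zero.2 hu)) (by fun_prop)
    (fun _ _ _ => rfl) (fun _ z _ => ?_) fun y hy _ => hy.2.2, ZMod.natCast_zmod_val,
    hc _ _ (mul_ne_zero (neg_ne_zero.2 hχ.2) hu) (mul_ne_zero hk hu) h2]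
  show ((om (-χ.1⁻¹) : ℂ) * z.2.2) ^ _ = _
  rw [mul_pow, om_pow_nat, ZMod.natCast_zmod_val, neg_mul_neg, mul_inv_cancel₀ hχ.1]

end Vale.Agent.P220Z.Tb
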