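import Vale.Agent.P220Z.Tb.Defs
import Vale.Agent.P220Z.Deg.Wind

/-!
# P220, Theorem B: powers of a label
-/

namespace Vale.Agent.P220Z.Tb

open Vale.Agent.P220Z.Def Vale.Agent.P220Z.Deg

theorem stPow : StPow := by
  intro w hw V _ _ _ s s' O Φ ε k _ hs hs' hε h1 h2 h3
  have h4 : WG O Φ ε := ⟨hs.op, hs.cont, hε, hs.cpt, h3⟩
  have h5 : pdeg (windDom O) (windMap Φ fun y => ε y ^ k) =
      k * pdeg (windDom O) (windMap Φ ε) := h4.wN_pow k
  rw [hw.good V s' O Φ (fun y => ε y ^ k) hs' (hε.pow k) h2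
    fun y hy h0 => pow_ne_zero _ (h3 y hy h0), hw.good V s O Φ ε hs hε h1 h3, h5]
  push_cast
  rfl

end Vale.Agent.P220Z.Tb
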