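import Vale.Agent.P220Z.Tb.Defs
import Vale.Agent.P220Z.Dyn.Step

/-!
# P220, Theorem B: the equivariant family of retractions
-/

open Set Metric Topology
open scoped ContDiff RealInnerProductSpace

namespace Vale.Agent.P220Z.Tb

open Vale.Agent.P220Z.Def Vale.Agent.P220Z.Rig

variable {U : Type} [NormedAddCommGroup U] [InnerProductSpace ℝ U] [FiniteDimensional ℝ U]

theorem inner_grad (φ : U → ℝ) (x v : U) : ⟪gradient φ x, v⟫ = fderiv ℝ φ x v :=
  InnerProductSpace.toDual_symm_apply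

theorem norm_grad (φ : U → ℝ) (x : U) : ‖gradient φ x‖ = ‖fderiv ℝ φ x‖ :=
  LinearIsometryEquiv.norm_map _ _

theorem grad_equiv {φ : U → ℝ} (hφ : Differentiable ℝ φ) (e : U ≃ₗᵢ[ℝ] U)
    (h : ∀ x, φ (e x) = φ x) (x : U) : gradient φ (e x) = e (gradient φ x) := by
  refine ext_inner_right ℝ fun v => ?_
  obtain ⟨v, rfl⟩ := e.surjective v
  have h1 := ((hφ (e x)).hasFDerivAt.comp x
    e.toContinuousLinearEquiv.toContinuousLinearMap.hasFDerivAt).fderiv
  rw [show φ ∘ e = φ from funext h] at h1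
  rw [e.inner_map_map, inner_grad, inner_grad, h1]
  rfl

theorem continuous_grad {φ : U → ℝ} (hφ : ContDiff ℝ ∞ φ) : Continuous (gradient φ) :=
  (InnerProductSpace.toDual ℝ U).symm.continuous.comp (hφ.continuous_fderiv (by norm_num))

/-- one step against the gradient leads back to the domain -/
theorem exists_back {φ : U → ℝ} (hφ : ContDiff ℝ ∞ φ) (hr : ∀ x, φ x = 0 → fderiv ℝ φ x ≠ 0)
    (R : ℝ) : ∃ C de : ℝ, 0 < de ∧ ∀ x, ‖x‖ ≤ R → φ x ≤ de →
      φ (x - (C * max (φ x) 0) • gradient φ x) ≤ 0 := by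
  have hK : ∀ R, IsCompact (closedBall (0 : U) R) := fun R => isCompact_closedBall _ _
  have hc := hφ.continuous_fderiv (by norm_num)
  obtain ⟨e, he, h1⟩ := (hK R).exists_forall_le' (a := 0)
    (f := fun x => max |φ x| ‖fderiv ℝ φ x‖) (hφ.continuous.abs.max hc.norm).continuousOn
    fun x _ => by
      by_cases h : φ x = 0
      · exact lt_max_of_lt_right (norm_pos_iff.2 (hr x h))
      · exact lt_max_of_lt_left (abs_pos.2 h)
  obtain ⟨L, hL⟩ := (hφ.fderiv_right (m := 1) (by norm_cast)).contDiffOn.exists_lipschitzOnWith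
    (s := closedBall (0 : U) (R + 1)) (by norm_num) (convex_closedBall _ _) (hK _)
  obtain ⟨G, hG⟩ := (hK R).exists_bound_of_continuousOn hc.continuousOn
  have hL0 : (0 : ℝ) ≤ L := L.2
  obtain ⟨C, hC⟩ : ∃ C : ℝ, C = 2 / e ^ 2 := ⟨_, rfl⟩
  have C0 : 0 < C := by rw [hC]; positivity
  have C1 : C * e ^ 2 = 2 := by rw [hC]; field_simp
  refine ⟨C, min (e / 2) (min (1 / (2 * (L + 1) * C)) (1 / (C * (|G| + 1)))), by positivity,
    fun x hx hd => ?_⟩
  rcases le_total (φ x) 0 with h0 | h0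
  · rwa [max_eq_right h0, mul_zero, zero_smul, sub_zero]
  rw [max_eq_left h0]
  have hxm := mem_closedBall_zero_iff.2 hx
  have d1 := hd.trans (min_le_left _ _)
  have d2 := hd.trans ((min_le_right _ _).trans (min_le_left _ _))
  have d3 := hd.trans ((min_le_right _ _).trans (min_le_right _ _))
  rw [le_div_iff₀ (by positivity)] at d2 d3
  have n1 : e ≤ ‖gradient φ x‖ := by
    rw [norm_grad]
    exact (le_max_iff.1 (h1 x hxm)).resolve_left (by rw [abs_of_nonneg h0]; linarith)
  have n2 : ‖gradient φ x‖ ≤ |G| + 1 := by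
    rw [norm_grad]; linarith [hG x hxm, le_abs_self G]
  have s0 : 0 ≤ C * φ x := by positivity
  have n3 : ‖(C * φ x) • gradient φ x‖ = C * φ x * ‖gradient φ x‖ := norm_smul_of_nonneg s0 _
  have n4 : ‖(C * φ x) • gradient φ x‖ ≤ 1 := by
    rw [n3]; nlinarith [mul_le_mul_of_nonneg_left n2 s0]
  have h2 := Dyn.descent' (hφ.differentiable (by norm_num)) (convex_closedBall (0 : U) (R + 1)) hL0
    (fun w hw w' hw' => by simpa [dist_eq_norm] using hL.dist_le_mul w hw w' hw')
    (w := x) (h := -((C * φ x) • gradient φ x)) (mem_closedBall_zero_iff.2 (by linarith))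
    (mem_closedBall_zero_iff.2 ((norm_add_le _ _).trans (by rw [norm_neg]; linarith)))
  rw [← sub_eq_add_neg, map_neg, map_smul, norm_neg, smul_eq_mul, ← inner_grad,
    real_inner_self_eq_norm_sq, n3] at h2
  have n5 : e ^ 2 ≤ ‖gradient φ x‖ ^ 2 := pow_le_pow_left₀ he.le n1 2
  have n6 : L * (C * φ x) ≤ 1 / 2 := by nlinarith
  have n7 := mul_le_mul_of_nonneg_left n5 s0
  have n8 := mul_le_mul_of_nonneg_right n6 (by positivity : 0 ≤ C * φ x * ‖gradient φ x‖ ^ 2)
  have n9 : C * φ x * e ^ 2 = 2 * φ x := by rw [← C1]; ring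
  nlinarith

theorem stRetr : StRetr := by
  intro U _ _ _ ρ φ m H wc h
  classical
  obtain ⟨R, hR⟩ := h.bdd
  obtain ⟨C, de, hde, hq⟩ := exists_back h.smooth h.reg (R + 1)
  have hφ := h.smooth.continuous
  have hg := continuous_grad h.smooth
  let q : U → U := fun x => x - (C * max (φ x) 0) • gradient φ x
  let u : U → ℝ := fun x => max (max (φ x) 0 / de) (‖x‖ - R)
  let K : ℝ → EB5 → U → U := fun s b x =>
    m (min (2 * s) 1, x) + H (max (2 * s - 1) 0, b, x) - m (1, x)
  have cq : Continuous q := by fun_prop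
  have cu : Continuous u := by fun_prop
  have u0 : ∀ x, 0 ≤ u x := fun x => le_max_of_le_left (by positivity)
  have q0 : ∀ x, u x ≤ 1 → φ (q x) ≤ 0 := fun x hx => by
    have h1 := max_le_iff.1 hx
    exact hq x (by linarith [h1.2]) ((le_max_left _ _).trans ((div_le_one hde).1 h1.1))
  have i1 : ∀ x, min (2 * u x) 1 ∈ Icc (0 : ℝ) 1 := fun x =>
    ⟨le_min (by linarith [u0 x]) zero_le_one, min_le_right _ _⟩
  have i2 : ∀ x, u x ≤ 1 → max (2 * u x - 1) 0 ∈ Icc (0 : ℝ) 1 := fun x hx =>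
    ⟨le_max_right _ _, max_le (by linarith) zero_le_one⟩
  have i3 : (1 : ℝ) ∈ Icc (0 : ℝ) 1 := right_mem_Icc.2 zero_le_one
  have k1 : ∀ s, s ≤ 1 / 2 → ∀ b ∈ B5, ∀ x, φ x ≤ 0 → K s b x = m (min (2 * s) 1, x) :=
    fun s hs b hb x hx => by
      simp only [K]
      rw [max_eq_right (by linarith), h.h0 b hb x hx, add_sub_cancel_right]
  have k2 : ∀ s, 1 / 2 ≤ s → ∀ b x, K s b x = H (max (2 * s - 1) 0, b, x) := fun s hs b x => by
    simp only [K]
    rw [min_eq_right (by linarith), add_sub_cancel_left]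
  refine ⟨fun y => if u y.2 ≤ 1 then K (u y.2) y.1 (q y.2) else 0, ?_, fun b hb x => ?_,
    fun b hb x hx => ?_, fun g b hb x => ?_⟩
  · have hcl : IsClosed {y : EB5 × U | u y.2 ≤ 1} := isClosed_le (by fun_prop) continuous_const
    refine ContinuousOn.if (fun y hy => ?_) ?_ continuousOn_const
    · have e : u y.2 = 1 := frontier_le_subset_eq (f := fun y : EB5 × U => u y.2) (by fun_prop)
        continuous_const hy.2
      rw [k2 _ (by linarith), e, max_eq_left (by norm_num), show (2 : ℝ) * 1 - 1 = 1 by norm_num]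
      exact h.h1 _ hy.1 _ (q0 _ e.le)
    · rw [hcl.closure_eq]
      refine ((h.mc.comp (f := fun y : EB5 × U => (min (2 * u y.2) 1, q y.2)) (by fun_prop)
        fun y hy => ⟨i1 _, q0 _ hy.2⟩).add (h.hc.comp
          (f := fun y : EB5 × U => (max (2 * u y.2 - 1) 0, y.1, q y.2)) (by fun_prop)
          fun y hy => ⟨i2 _ hy.2, hy.1, q0 _ hy.2⟩)).sub
        (h.mc.comp (f := fun y : EB5 × U => (1, q y.2)) (by fun_prop) fun y hy => ⟨i3, q0 _ hy.2⟩)
  · dsimp only
    split_ifs with hx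
    · rcases le_total (u x) (1 / 2) with h1 | h1
      · rw [k1 _ h1 b hb _ (q0 x hx)]; exact h.mm _ (i1 x) _ (q0 x hx)
      · rw [k2 _ h1]; exact h.hm _ (i2 x hx) b hb _ (q0 x hx)
    · exact h.zero
  · have e1 : u x = 0 := by
      have : ‖x‖ < R := not_le.1 fun h1 => (hR x h1).not_ge hx
      simp only [u]
      rw [max_eq_right hx, zero_div, max_eq_left (by linarith)]
    have e2 : q x = x := by simp only [q]; rw [max_eq_right hx, mul_zero, zero_smul, sub_zero]
    dsimp only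
    rw [e1, e2, if_pos zero_le_one, k1 0 (by norm_num) b hb x hx, mul_zero,
      min_eq_left zero_le_one, h.m0 x hx]
  · have e1 : u (ρ g x) = u x := by simp only [u]; rw [h.inv, LinearIsometryEquiv.norm_map]
    have e2 : q (ρ g x) = ρ g (q x) := by
      simp only [q]
      rw [h.inv, grad_equiv (h.smooth.differentiable (by norm_num)) _ (h.inv g), map_sub, map_smul]
    dsimp only
    rw [e1, e2]
    split_ifs with hx
    · simp only [K]
      rw [h.me g _ (i1 x) _ (q0 x hx), h.me g _ i3 _ (q0 x hx), h.he g _ (i2 x hx) b hb _ (q0 x hx),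
        map_sub, map_add]
    · exact (map_zero _).symm

end Vale.Agent.P220Z.Tb
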