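import Vale.Agent.P220Z.Tb.Sq
import Vale.Agent.P220Z.Tb.Lc
import Vale.Agent.P220Z.Tb.Pow
import Vale.Agent.P220Z.Tb.Retr

/-!
# P220, Theorem B: the reduction, assembled
-/

namespace Vale.Agent.P220Z.Tb

theorem b0 : StB0 := stB0 stSq (stLc stPow)

end Vale.Agent.P220Z.Tb
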