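import Vale.Agent.P220Z.Tb.Defs
import Vale.Agent.P220Z.Rig.Ful
import Vale.Agent.P220Z.Rig.Circ
import Vale.Agent.P220Z.Dyn.Step

/-!
# P220, Theorem B: the gradient field, margins, admissible maps
-/

open Set Topology Metric
open scoped ContDiff RealInnerProductSpace

namespace Vale.Agent.P220Z.Tb

open Vale.Agent.P220Z.Def Vale.Agent.P220Z.Rig

variable {U : Type} [NormedAddCommGroup U] [InnerProductSpace ℝ U] [FiniteDimensional ℝ U]
  {ρ : G5 →* (U ≃ₗᵢ[ℝ] U)} {φ : U → ℝ} {m : ℝ × U → U} {H : ℝ × EB5 × U → U} {wc : U →L[ℝ] ℂ}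

theorem inner_grd (φ : U → ℝ) (x v : U) : ⟪gradient φ x, v⟫ = fderiv ℝ φ x v := by
  simp [gradient]

theorem grd_equiv (hφ : Differentiable ℝ φ) (T : U ≃ₗᵢ[ℝ] U) (hT : ∀ x, φ (T x) = φ x) (x : U) :
    gradient φ (T x) = T (gradient φ x) := by
  apply ext_inner_right ℝ
  intro v
  obtain ⟨u, rfl⟩ := T.surjective v
  rw [T.inner_map_map, inner_grd, inner_grd]
  have h1 : HasFDerivAt (fun y => φ (T y))
      ((fderiv ℝ φ (T x)).comp (T.toContinuousLinearEquiv : U →L[ℝ] U)) x :=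
    (hφ (T x)).hasFDerivAt.comp x (T.toContinuousLinearEquiv : U →L[ℝ] U).hasFDerivAt
  have h2 : (fun y => φ (T y)) = φ := funext hT
  rw [h2] at h1
  rw [h1.fderiv]
  rfl

theorem grad_contDiff (hφ : ContDiff ℝ ∞ φ) : ContDiff ℝ 1 (gradient φ) := by
  have h1 : ContDiff ℝ 1 (fderiv ℝ φ) := hφ.fderiv_right (WithTop.coe_le_coe.2 (le_top : (2 : ℕ∞) ≤ ⊤))
  exact (InnerProductSpace.toDual ℝ U).symm.toContinuousLinearEquiv.contDiff.comp h1

theorem IsHs.cpt (h : IsHs ρ φ m H wc) : IsCompact {x | φ x ≤ 0} := by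
  obtain ⟨R, hR⟩ := h.bdd
  refine isCompact_of_isClosed_isBounded (isClosed_le h.smooth.continuous continuous_const) ?_
  refine (isBounded_closedBall (x := (0 : U)) (r := R)).subset fun x hx => ?_
  rw [mem_closedBall_zero_iff]
  by_contra hc
  exact absurd (hR x (le_of_lt (not_le.1 hc))) (not_lt.2 hx)

/-- constants: a ball that contains the domain, a Lipschitz constant and a bound -/
theorem IsHs.consts (h : IsHs ρ φ m H wc) : ∃ R L C : ℝ, 0 < L ∧ 0 < C ∧
    (∀ x, φ x ≤ 0 → ‖x‖ ≤ R) ∧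
    (∀ x x' : U, ‖x‖ ≤ R → ‖x'‖ ≤ R → ‖gradient φ x - gradient φ x'‖ ≤ L * ‖x - x'‖) ∧
    ∀ x : U, ‖x‖ ≤ R → ‖gradient φ x‖ ≤ C := by
  obtain ⟨R, hR⟩ := h.cpt.isBounded.exists_norm_le
  have hg := grad_contDiff h.smooth
  obtain ⟨K, hK⟩ := hg.contDiffOn.exists_lipschitzOnWith (s := closedBall (0 : U) R) one_ne_zero
    (convex_closedBall 0 R) (isCompact_closedBall 0 R)
  obtain ⟨C, hC⟩ := (isCompact_closedBall (0 : U) R).exists_bound_of_continuousOn
    hg.continuous.continuousOn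
  refine ⟨R, K + 1, |C| + 1, by positivity, by positivity, hR, fun x x' hx hx' => ?_,
    fun x hx => ?_⟩
  · have := hK.dist_le_mul x (mem_closedBall_zero_iff.2 hx) x' (mem_closedBall_zero_iff.2 hx')
    rw [dist_eq_norm, dist_eq_norm] at this
    nlinarith [norm_nonneg (x - x')]
  · linarith [hC x (mem_closedBall_zero_iff.2 hx), le_abs_self C]

theorem IsHs.grad_pos (h : IsHs ρ φ m H wc) {x : U} (hx : φ x = 0) :
    0 < ⟪gradient φ x, gradient φ x⟫ := by
  rw [real_inner_self_pos]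
  intro h0
  apply h.reg x hx
  ext v
  rw [← inner_grd, h0]
  simp

theorem IsHs.isFld (h : IsHs ρ φ m H wc) : IsFld ρ φ fun y => gradient φ y.2 where
  cont := ((grad_contDiff h.smooth).continuous.comp continuous_snd).continuousOn
  eq g _ _ x _ := grd_equiv (h.smooth.differentiable (by simp)) (ρ g) (h.inv g) x
  lip := by
    obtain ⟨R, L, C, -, -, h1, h2, -⟩ := h.consts
    exact ⟨L, fun _ _ x x' hx hx' => h2 x x' (h1 x hx) (h1 x' hx')⟩
  out _ _ _ hx := h.grad_pos hx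

theorem stp_cont (hφ : ContDiff ℝ ∞ φ) (t : ℝ) : Continuous (stp φ t) :=
  continuous_id.sub ((grad_contDiff hφ).continuous.const_smul t)

theorem IsHs.stp_eq (h : IsHs ρ φ m H wc) (t : ℝ) (g : G5) (x : U) :
    stp φ t (ρ g x) = ρ g (stp φ t x) := by
  rw [stp, stp, grd_equiv (h.smooth.differentiable (by simp)) (ρ g) (h.inv g), map_sub, map_smul]

/-- a short step ends at a positive distance from the complement of the domain -/
theorem IsHs.margin (h : IsHs ρ φ m H wc) : ∃ t₀ > 0, ∀ t ∈ Ioo (0 : ℝ) t₀, ∃ e > 0,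
    ∀ x y : U, φ x ≤ 0 → ‖y - stp φ t x‖ ≤ e → φ y < 0 := by
  obtain ⟨R, L, C, -, -, h1, -, h3⟩ := h.consts
  have hgc := (grad_contDiff h.smooth).continuous
  have hN : Continuous fun x => ⟪gradient φ x, gradient φ x⟫ := hgc.inner hgc
  obtain ⟨c, hc, hc'⟩ := (h.cpt.inter_right (isClosed_eq h.smooth.continuous
    (continuous_const (y := (0 : ℝ))))).exists_forall_le' hN.continuousOn
    (a := 0) fun x hx => h.grad_pos hx.2
  obtain ⟨e₀, he₀, he⟩ := small_d _ h.cpt φ h.smooth.continuous.continuousOn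
    {x | c / 2 < ⟪gradient φ x, gradient φ x⟫} fun x hx h0 =>
      mem_nhdsWithin_of_mem_nhds ((isOpen_lt continuous_const hN).mem_nhds
        (lt_of_lt_of_le (half_lt_self hc) (hc' x ⟨hx, h0⟩)))
  obtain ⟨t₀, ht₀, ht⟩ := Dyn.stStep U φ (R + 1) C e₀ (c / 2)
    ⟨h.smooth.of_le (WithTop.coe_le_coe.2 (le_top : (2 : ℕ∞) ≤ ⊤)), fun x hx => by linarith [h1 x hx]⟩ he₀
    (half_pos hc)
  refine ⟨t₀, ht₀, fun t htt => ?_⟩
  have hneg : stp φ t '' {x | φ x ≤ 0} ⊆ {y | φ y < 0} := by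
    rintro _ ⟨x, hx, rfl⟩
    have := ht t ⟨htt.1.le, htt.2.le⟩ x (gradient φ x) hx (h3 x (h1 x hx)) fun hl => by
      rw [← inner_grd]
      refine (he x hx ?_).le
      rw [Real.norm_eq_abs, abs_le]
      exact ⟨hl, le_trans hx he₀.le⟩
    refine lt_of_le_of_lt this (max_lt ?_ (by linarith))
    have : 0 < t * (c / 2) / 2 := by have := htt.1; positivity
    have hx' : φ x ≤ 0 := hx
    linarith
  obtain ⟨e, he0, hsub⟩ := (h.cpt.image (stp_cont h.smooth t)).exists_cthickening_subset_open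
    (isOpen_lt h.smooth.continuous continuous_const) hneg
  refine ⟨e, he0, fun x y hx hy => hsub ?_⟩
  exact mem_cthickening_of_dist_le y _ e _ ⟨x, hx, rfl⟩ (by rwa [dist_eq_norm])

/-- short steps along a Lipschitz field have no normalised cycles -/
theorem adm_lip {X : U → U} {R L t κ : ℝ} (ht : 0 ≤ t) (hL : 0 ≤ L) (htL : t * L ≤ 1 / 4)
    (hκ : 0 < κ)
    (hX : ∀ x x' : U, ‖x‖ ≤ R → ‖x'‖ ≤ R → ‖X x - X x'‖ ≤ L * ‖x - x'‖) {k : ZMod 5}
    (hq : ∀ v : X5 U, avg v = 0 → ∑ j, ⟪v (j - k), v j⟫ ≤ 1 / 2 * ∑ j, ‖v j‖ ^ 2) {w : X5 U}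
    (hw : ∀ j, ‖w j‖ ≤ R) (he : ∀ j, w j + κ • perp w j = w (j - k) - t • X (w (j - k))) :
    perp w = 0 := by
  set v := perp w with hv
  have hv0 : avg v = 0 := avg_perp w
  have hs0 : ∑ j, v j = 0 := by
    have := hv0
    rw [avg_apply] at this
    exact (smul_eq_zero.1 this).resolve_left (by norm_num)
  have ha : ‖avg w‖ ≤ R := by
    refine (norm_avg_le w).trans ?_
    exact (pi_norm_le_iff_of_nonneg ((norm_nonneg _).trans (hw 0))).2 hw
  have hwj : ∀ j, w j = v j + avg w := fun j => by rw [hv, perp_apply]; abel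
  have h1 : ∀ j, (1 + κ) * ‖v j‖ ^ 2 = ⟪v (j - k), v j⟫ -
      t * ⟪X (w (j - k)) - X (avg w), v j⟫ - t * ⟪X (avg w), v j⟫ := fun j => by
    have e1 : (1 + κ) • v j = v (j - k) - t • X (w (j - k)) := by
      have := he j
      rw [hwj j] at this
      nth_rewrite 1 [hwj (j - k)] at this
      rw [add_smul, one_smul]
      linear_combination (norm := module) this
    have e2 := congrArg (fun y => ⟪y, v j⟫) e1
    simp only [inner_smul_left, inner_sub_left, real_inner_self_eq_norm_sq, RCLike.conj_to_real]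
      at e2 ⊢
    linarith
  have h2 : ∀ j, -⟪X (w (j - k)) - X (avg w), v j⟫ ≤
      L * ((‖v (j - k)‖ ^ 2 + ‖v j‖ ^ 2) / 2) := fun j => by
    have e1 := hX _ _ (hw (j - k)) ha
    have e2 : w (j - k) - avg w = v (j - k) := by rw [hwj (j - k)]; abel
    rw [e2] at e1
    have e3 := abs_real_inner_le_norm (X (w (j - k)) - X (avg w)) (v j)
    have e4 := neg_abs_le ⟪X (w (j - k)) - X (avg w), v j⟫
    have e5 := mul_le_mul_of_nonneg_right e1 (norm_nonneg (v j))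
    nlinarith [mul_nonneg hL (sq_nonneg (‖v (j - k)‖ - ‖v j‖))]
  have h3 : ∑ j, ‖v (j - k)‖ ^ 2 = ∑ j, ‖v j‖ ^ 2 :=
    (Equiv.subRight k).sum_comp fun j => ‖v j‖ ^ 2
  have h4 : ∑ j, ⟪X (avg w), v j⟫ = 0 := by rw [← inner_sum, hs0, inner_zero_right]
  have h5 : (1 + κ) * ∑ j, ‖v j‖ ^ 2 = ∑ j, ⟪v (j - k), v j⟫ +
      t * ∑ j, -⟪X (w (j - k)) - X (avg w), v j⟫ - t * ∑ j, ⟪X (avg w), v j⟫ := by
    simp only [Finset.mul_sum, ← Finset.sum_add_distrib, ← Finset.sum_sub_distrib]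
    exact Finset.sum_congr rfl fun j _ => by rw [h1 j]; ring
  have h6 : ∑ j, -⟪X (w (j - k)) - X (avg w), v j⟫ ≤ L * ∑ j, ‖v j‖ ^ 2 := by
    refine (Finset.sum_le_sum fun j _ => h2 j).trans (le_of_eq ?_)
    rw [← Finset.mul_sum, ← Finset.sum_div, Finset.sum_add_distrib, h3]
    ring
  have h7 := hq v hv0
  have h8 : 0 ≤ ∑ j, ‖v j‖ ^ 2 := Finset.sum_nonneg fun j _ => sq_nonneg _
  have h9 : ∑ j, ‖v j‖ ^ 2 = 0 := by
    rw [h4] at h5
    have := mul_le_mul_of_nonneg_left h6 ht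
    have := mul_le_mul_of_nonneg_right htL h8
    nlinarith [mul_nonneg hκ.le h8]
  funext j
  have := (Finset.sum_eq_zero_iff_of_nonneg fun j _ => sq_nonneg ‖v j‖).1 h9 j (Finset.mem_univ j)
  simpa using this

theorem e10_pow : e10 ^ 5 = -1 := by
  rw [e10, ← Complex.exp_nat_mul]
  have : ((5 : ℕ) : ℂ) * (Real.pi / 5 * Complex.I) = Real.pi * Complex.I := by push_cast; ring
  rw [this, Complex.exp_pi_mul_I]

theorem norm_e10 : ‖e10‖ = 1 := by
  have : (Real.pi / 5 * Complex.I : ℂ) = ((Real.pi / 5 : ℝ) : ℂ) * Complex.I := by push_cast; ring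
  rw [e10, this, Complex.norm_exp_ofReal_mul_I]

/-- an approximate cycle of maps that rotate by a tenth of a turn is small -/
theorem half_turn {a : ZMod 5 → ℂ} {k : ZMod 5} {δ : ℝ}
    (h : ∀ j, ∃ c ∈ Icc (0 : ℝ) 1, ‖a j - c * e10 * a (j - k)‖ ≤ δ) (j : ZMod 5) :
    ‖a j‖ ≤ 5 * δ := by
  have h1 : ∀ n : ℕ, ∃ c ∈ Icc (0 : ℝ) 1, ‖a j - c * e10 ^ n * a (j - n * k)‖ ≤ n * δ := by
    intro n
    induction n with
    | zero => exact ⟨1, ⟨zero_le_one, le_rfl⟩, by simp⟩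
    | succ n ih =>
      obtain ⟨c, hc, h2⟩ := ih
      obtain ⟨c', hc', h3⟩ := h (j - n * k)
      refine ⟨c * c', ⟨mul_nonneg hc.1 hc'.1, mul_le_one₀ hc.2 hc'.1 hc'.2⟩, ?_⟩
      have e1 : j - ((n + 1 : ℕ) : ZMod 5) * k = j - n * k - k := by push_cast; ring
      have e2 : a j - ((c * c' : ℝ) : ℂ) * e10 ^ (n + 1) * a (j - n * k - k) =
          (a j - c * e10 ^ n * a (j - n * k)) +
            c * e10 ^ n * (a (j - n * k) - c' * e10 * a (j - n * k - k)) := by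
        push_cast; ring
      rw [e1, e2]
      refine (norm_add_le _ _).trans ?_
      rw [norm_mul, norm_mul, norm_pow, norm_e10, one_pow, mul_one, Complex.norm_real,
        Real.norm_of_nonneg hc.1]
      have := mul_le_mul hc.2 h3 (norm_nonneg _) zero_le_one
      push_cast
      linarith
  obtain ⟨c, hc, h2⟩ := h1 5
  have e1 : j - ((5 : ℕ) : ZMod 5) * k = j := by
    rw [ZMod.natCast_self]; simp
  have e2 : a j - c * (-1) * a j = ((1 + c : ℝ) : ℂ) * a j := by push_cast; ring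
  rw [e1, e10_pow, e2, norm_mul, Complex.norm_real, Real.norm_of_nonneg (by linarith [hc.1])]
    at h2
  push_cast at h2
  nlinarith [norm_nonneg (a j), hc.1]

end Vale.Agent.P220Z.Tb
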