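import Vale.Agent.P220Z.Tb.Grad
import Vale.Agent.P220Z.Rig.Path

/-!
# P220, Theorem B: the squares
-/

open Set Topology Metric
open scoped ContDiff RealInnerProductSpace

namespace Vale.Agent.P220Z.Tb

open Vale.Agent.P220Z.Def Vale.Agent.P220Z.Rig

section Pr

variable {V : Type} [NormedAddCommGroup V] [NormedSpace ℝ V] {π : G3 →* (V →L[ℝ] V)}
  {P : Type} [TopologicalSpace P] {O O' : Set (P × EB5 × V)} {Φ Φ' : P × EB5 × V → V}
  {ε : P × EB5 × V → ℂ}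

theorem isPr_shrink (h : IsPr π O Φ ε) (hs : O' ⊆ O)
    (ho : ∀ w ∈ O', O' ∈ 𝓝[{v | v.2.1 ∈ B5}] w)
    (hm : ∀ γ p b z, (p, b, z) ∈ O' → (p, β5 γ.1 b, π γ z) ∈ O')
    (hz : ∀ w ∈ O, Φ w = 0 → w ∈ O') (he : ∀ w ∈ O', Φ' w = Φ w) : IsPr π O' Φ' ε where
  sub w hw := h.sub w (hs hw)
  op := ho
  cont := (h.cont.mono hs).congr he
  conte := h.conte.mono hs
  mem := hm
  eq γ p b z hw := by rw [he _ (hm γ p b z hw), he _ hw, h.eq γ p b z (hs hw)]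
  eqe γ p b z hw := h.eqe γ p b z (hs hw)
  free w hw := h.free w (hs hw)
  cpt := by
    convert h.cpt using 1
    ext w
    exact ⟨fun hw => ⟨hs hw.1, he w hw.1 ▸ hw.2.1, hw.2.2⟩,
      fun hw => ⟨hz w hw.1 hw.2.1, (he w (hz w hw.1 hw.2.1)).trans hw.2.1, hw.2.2⟩⟩

end Pr

variable {U : Type} [NormedAddCommGroup U] [InnerProductSpace ℝ U] [FiniteDimensional ℝ U]
  {ρ : G5 →* (U ≃ₗᵢ[ℝ] U)} {n : NFun}

/-- the family `rho s ∘ (f u)⁵` over the plane of the `(s, u)` -/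
noncomputable def fam (f : ℝ × EB5 × U → U) (w : (ℝ × ℝ) × EB5 × X5 U) : X5 U :=
  rho w.1.1 fun j => f (w.1.2, w.2.1, w.2.2 j)

/-- the count along a segment -/
noncomputable def pc (n : NFun) (ρ : G5 →* (U ≃ₗᵢ[ℝ] U)) (d : ℝ) (f : ℝ × EB5 × U → U)
    (p q : ℝ × ℝ) : ZMod 5 :=
  pcnt n (pi5 ρ) (fdom univ) (ful d (fam f)) (fun _ => 0) (seg p q)

/-- admissible parameters -/
def Ad (d : ℝ) (f : ℝ × EB5 × U → U) (p : ℝ × ℝ) : Prop :=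
  Adm (fdom univ) (ful d (fam f)) (fun _ => 0) p

/-- the family is proper -/
def PF (ρ : G5 →* (U ≃ₗᵢ[ℝ] U)) (d : ℝ) (f : ℝ × EB5 × U → U) : Prop :=
  IsPF (pi5 ρ) (fdom univ) (ful d (fam f)) fun _ => 0

theorem pf_of {d R : ℝ} (hd : 0 < d) {f : ℝ × EB5 × U → U}
    (hc : ContinuousOn f {y | y.2.1 ∈ B5})
    (he : ∀ g u b x, b ∈ B5 → f (u, β5 g b, ρ g x) = ρ g (f (u, b, x)))
    (hb : ∀ u b x, b ∈ B5 → ‖f (u, b, x)‖ ≤ R) : PF ρ d f := by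
  refine isPF_ful ρ d hd univ univ (fam f) ?_ ?_ (fun _ _ _ => Filter.univ_mem)
    (fun _ _ _ _ _ _ => mem_univ _) subset_rfl ?_ fun K _ => ⟨5 * R + d, ?_⟩
  · refine continuous_rho.comp_continuousOn (f := fun w : (ℝ × ℝ) × EB5 × X5 U =>
      (w.1.1, fun j => f (w.1.2, w.2.1, w.2.2 j))) (ContinuousOn.prodMk (by fun_prop) ?_)
    refine continuousOn_pi.2 fun j => hc.comp (f := fun w : (ℝ × ℝ) × EB5 × X5 U =>
      (w.1.2, w.2.1, w.2.2 j)) (by fun_prop) fun w hw => hw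
  · intro γ p b x hb'
    simp only [fam]
    rw [← rho_pi5]
    congr 1
    funext j
    simp only [pi5_apply]
    exact he _ _ _ _ hb'
  · rw [univ_inter]
    exact isClosed_B5.preimage (by fun_prop)
  · intro w _ hw _ k hk h1 h2
    refine ⟨mem_univ _, ?_⟩
    have h3 : w.2.2 = fam f w - k • perp w.2.2 := eq_sub_of_add_eq h2
    have hR : 0 ≤ R := (norm_nonneg _).trans (hb 0 _ 0 hw)
    have h4 : ‖fam f w‖ ≤ 5 * R := (norm_rho_le _ _).trans (by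
      have : ‖fun j => f (w.1.2, w.2.1, w.2.2 j)‖ ≤ R :=
        (pi_norm_le_iff_of_nonneg hR).2 fun j => hb _ _ _ hw
      linarith)
    rw [h3]
    refine (norm_sub_le _ _).trans ?_
    rw [norm_smul, Real.norm_of_nonneg hk.le, h1]
    linarith

theorem ad_of {d : ℝ} (hd : 0 < d) {f : ℝ × EB5 × U → U} {p : ℝ × ℝ}
    (h : ∀ b ∈ B5, ∀ w : X5 U, ∀ κ > (0 : ℝ), κ * ‖perp w‖ = d →
      w + κ • perp w = rho p.1 (fun j => f (p.2, b, w j)) → perp w = 0) : Ad d f p := by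
  intro b z hz h0
  obtain ⟨κ, hκ, h1, h2⟩ := (ful_eq_zero hd hz.2.2).1 h0
  exact absurd (h b hz.1 z κ hκ h1 h2) hz.2.2

theorem pc_square (hn : IsN n) {d : ℝ} {f : ℝ × EB5 × U → U} (h : PF ρ d f)
    (h10 : Ad d f (1, 0)) (h11 : Ad d f (1, 1)) (h20 : Ad d f (2, 0)) (h21 : Ad d f (2, 1)) :
    pc n ρ d f (1, 0) (2, 0) =
      pc n ρ d f (1, 0) (1, 1) + pc n ρ d f (1, 1) (2, 1) - pc n ρ d f (2, 0) (2, 1) := by
  have e1 := seg_add hn h h10 h11 h21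
  have e2 := seg_add hn h h10 h20 h21
  simp only [pc]
  linear_combination e1 - e2

theorem pc_zero (hn : IsN n) {d : ℝ} {f : ℝ × EB5 × U → U} (h : PF ρ d f) {p q : ℝ × ℝ}
    (ha : ∀ τ ∈ Icc (0 : ℝ) 1, Ad d f (seg p q τ)) : pc n ρ d f p q = 0 :=
  pcnt_zero hn h (seg_cont p q) ha

theorem seg_row (u τ : ℝ) : seg ((1 : ℝ), u) (2, u) τ = (1 + τ, u) := by
  simp only [seg, Prod.mk_sub_mk, Prod.smul_mk, Prod.mk_add_mk, smul_eq_mul]
  ext <;> simp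
  norm_num

theorem seg_col (s τ : ℝ) : seg (s, (0 : ℝ)) (s, 1) τ = (s, τ) := by
  simp [seg]

theorem aInv_eq (hn : IsN n) {d u : ℝ} {f : ℝ × EB5 × U → U} (h : PF ρ d f) (h1 : Ad d f (1, u))
    (h2 : Ad d f (2, u)) {f' : EB5 × U → U} (he : ∀ b ∈ B5, ∀ x, f' (b, x) = f (u, b, x)) :
    aInv n ρ d f' = pc n ρ d f (1, u) (2, u) := by
  have hp := IsPF.isPr h (seg_cont ((1 : ℝ), u) (2, u)) (a := 0) (b := 1) (by simpa [Ad] using h1)
    (by simpa [Ad] using h2)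
  have hs : {w : ℝ × EB5 × X5 U | w.1 ∈ Ioo (0 : ℝ) 1 ∧ (1 + w.1, w.2) ∈ fdom univ} =
      {w | w.1 ∈ Ioo (0 : ℝ) 1 ∧ (seg ((1 : ℝ), u) (2, u) w.1, w.2) ∈ fdom univ} := rfl
  have hΦ : ∀ w ∈ {w : ℝ × EB5 × X5 U | w.1 ∈ Ioo (0 : ℝ) 1 ∧
      (seg ((1 : ℝ), u) (2, u) w.1, w.2) ∈ fdom univ}, ful d (rf f') (1 + w.1, w.2) =
      ful d (fam f) (seg ((1 : ℝ), u) (2, u) w.1, w.2) := fun w hw => by
    simp only [ful, rf, fam, seg_row]
    congr 3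
    funext j
    exact he _ hw.2.1 _
  simp only [aInv, pc, pcnt]
  rw [hs]
  exact hn.exc _ _ _ _ _ _ _ _ hp (isPr_shrink hp subset_rfl hp.op hp.mem (fun _ hw _ => hw) hΦ)
    subset_rfl (fun _ hw _ _ => hw) fun w hw => ⟨hΦ w hw, rfl⟩

/-- the clamp -/
noncomputable def cl1 (u : ℝ) : ℝ := projIcc (0 : ℝ) 1 zero_le_one u

theorem cl1_mem (u : ℝ) : cl1 u ∈ Icc (0 : ℝ) 1 := (projIcc (0 : ℝ) 1 zero_le_one u).2

theorem cl1_of {u : ℝ} (h : u ∈ Icc (0 : ℝ) 1) : cl1 u = u := by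
  rw [cl1, projIcc_of_mem _ h]

theorem cl1_cont : Continuous cl1 := continuous_subtype_val.comp continuous_projIcc

theorem rho_k {s : ℝ} {k : ZMod 5} (h : s = 1 ∧ k = 1 ∨ s = 2 ∧ k = 2) (x : X5 U) :
    rho s x = fun j => x (j - k) := by
  rcases h with ⟨rfl, rfl⟩ | ⟨rfl, rfl⟩
  · rw [rho_one]; rfl
  · rw [rho_two]
    funext j
    simp only [sh]
    congr 1
    ring

variable {φ : U → ℝ} {m : ℝ × U → U} {H : ℝ × EB5 × U → U} {wc : U →L[ℝ] ℂ} {r : EB5 × U → U}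

/-- the first family -/
noncomputable def f1 (φ : U → ℝ) (m : ℝ × U → U) (r : EB5 × U → U) (t : ℝ) (y : ℝ × EB5 × U) : U :=
  stp φ t (m (cl1 y.1, r y.2))

/-- the second family -/
noncomputable def f2 (φ : U → ℝ) (H : ℝ × EB5 × U → U) (r : EB5 × U → U) (t : ℝ)
    (y : ℝ × EB5 × U) : U :=
  stp φ t (H (cl1 y.1, y.2.1, r y.2))

theorem stp_bd (h : IsHs ρ φ m H wc) (t : ℝ) : ∃ R, ∀ x, φ x ≤ 0 → ‖stp φ t x‖ ≤ R :=
  h.cpt.exists_bound_of_continuousOn (stp_cont h.smooth t).continuousOn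

theorem pf1 (h : IsHs ρ φ m H wc) (hr : IsRetr ρ φ r) (t : ℝ) {d : ℝ} (hd : 0 < d) :
    PF ρ d (f1 φ m r t) := by
  obtain ⟨R, hR⟩ := stp_bd h t
  refine pf_of (R := R) hd ?_ (fun g u b x hb => ?_) fun u b x hb => ?_
  · refine (stp_cont h.smooth t).comp_continuousOn (h.mc.comp (f := fun y : ℝ × EB5 × U =>
      (cl1 y.1, r y.2)) (ContinuousOn.prodMk (cl1_cont.comp continuous_fst).continuousOn
        (hr.cont.comp continuous_snd.continuousOn fun y hy => hy)) fun y hy => ?_)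
    exact ⟨cl1_mem _, hr.mem _ hy _⟩
  · simp only [f1]
    rw [hr.eq g b hb, h.me g _ (cl1_mem _) _ (hr.mem b hb x), h.stp_eq]
  · exact hR _ (h.mm _ (cl1_mem _) _ (hr.mem b hb x))

theorem pf2 (h : IsHs ρ φ m H wc) (hr : IsRetr ρ φ r) (t : ℝ) {d : ℝ} (hd : 0 < d) :
    PF ρ d (f2 φ H r t) := by
  obtain ⟨R, hR⟩ := stp_bd h t
  refine pf_of (R := R) hd ?_ (fun g u b x hb => ?_) fun u b x hb => ?_
  · refine (stp_cont h.smooth t).comp_continuousOn (h.hc.comp (f := fun y : ℝ × EB5 × U =>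
      (cl1 y.1, y.2.1, r y.2)) (ContinuousOn.prodMk (cl1_cont.comp continuous_fst).continuousOn
        (ContinuousOn.prodMk (by fun_prop)
          (hr.cont.comp continuous_snd.continuousOn fun y hy => hy))) fun y hy => ?_)
    exact ⟨cl1_mem _, hy, hr.mem _ hy _⟩
  · simp only [f2]
    rw [hr.eq g b hb, h.he g _ (cl1_mem _) b hb _ (hr.mem b hb x), h.stp_eq]
  · exact hR _ (h.hm _ (cl1_mem _) b hb _ (hr.mem b hb x))

omit [FiniteDimensional ℝ U] in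
theorem perp_small {w : X5 U} {κ d : ℝ} (hκ : 0 < κ) (h : κ * ‖perp w‖ = d) (j : ZMod 5) :
    ‖κ • perp w j‖ ≤ d := by
  rw [norm_smul, Real.norm_of_nonneg hκ.le, ← h]
  exact mul_le_mul_of_nonneg_left (norm_le_pi_norm (perp w) j) hκ.le

/-- the points of a normalised cycle are in the interior of the domain -/
theorem cyc_neg {t e d κ : ℝ} (hm : ∀ x y : U, φ x ≤ 0 → ‖y - stp φ t x‖ ≤ e → φ y < 0)
    (hde : d ≤ e) {w q : X5 U} (hκ : 0 < κ) (h : κ * ‖perp w‖ = d) (hq : ∀ j, φ (q j) ≤ 0)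
    (he : ∀ j, w j + κ • perp w j = stp φ t (q j)) (j : ZMod 5) : φ (w j) < 0 := by
  refine hm (q j) (w j) (hq j) ?_
  rw [← he j, sub_add_cancel_left, norm_neg]
  exact (perp_small hκ h j).trans hde

omit [FiniteDimensional ℝ U] in
theorem perp_of_const {w : X5 U} {κ : ℝ} (hκ : 0 < κ) {c : U}
    (h : w + κ • perp w = fun _ => c) : perp w = 0 := by
  have := congrArg perp h
  rw [map_add, map_smul, perp_perp, perp_const] at this
  have h2 : (1 + κ) • perp w = 0 := by rw [add_smul, one_smul, this]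
  exact (smul_eq_zero.1 h2).resolve_left (by linarith)

theorem col_eq (hn : IsN n) (h : IsHs ρ φ m H wc) (hr : IsRetr ρ φ r) {t e d s : ℝ} {k : ZMod 5}
    (hd : 0 < d) (hm : ∀ x y : U, φ x ≤ 0 → ‖y - stp φ t x‖ ≤ e → φ y < 0) (hde : d ≤ e)
    (hk : s = 1 ∧ k = 1 ∨ s = 2 ∧ k = 2) (h0 : Ad d (f1 φ m r t) (s, 0))
    (h1 : Ad d (f1 φ m r t) (s, 1)) :
    MPr ρ φ m k t d ∧ mcnt n ρ φ m k t d = pc n ρ d (f1 φ m r t) (s, 0) (s, 1) := by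
  have hp := IsPF.isPr (pf1 h hr t hd) (seg_cont (s, (0 : ℝ)) (s, 1)) (a := 0) (b := 1)
    (by simpa [Ad] using h0) (by simpa [Ad] using h1)
  have hs : {y : ℝ × EB5 × X5 U | y.2.1 ∈ B5 ∧ (y.1, y.2.2) ∈ mdom φ} ⊆
      {w | w.1 ∈ Ioo (0 : ℝ) 1 ∧ (seg (s, (0 : ℝ)) (s, 1) w.1, w.2) ∈ fdom univ} :=
    fun y hy => ⟨hy.2.1, hy.1, mem_univ _, hy.2.2.2⟩
  have hΦ : ∀ y ∈ {y : ℝ × EB5 × X5 U | y.2.1 ∈ B5 ∧ (y.1, y.2.2) ∈ mdom φ},
      mmap φ m k t d (y.1, y.2.2) =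
        ful d (fam (f1 φ m r t)) (seg (s, (0 : ℝ)) (s, 1) y.1, y.2) := fun y hy => by
    simp only [mmap, ful, fam, seg_col, rho_k hk, f1]
    congr 2
    funext j
    rw [cl1_of ⟨hy.2.1.1.le, hy.2.1.2.le⟩, hr.fix _ hy.1 _ (hy.2.2.1 _).le]
  have hz : ∀ w ∈ {w : ℝ × EB5 × X5 U | w.1 ∈ Ioo (0 : ℝ) 1 ∧
      (seg (s, (0 : ℝ)) (s, 1) w.1, w.2) ∈ fdom univ},
      ful d (fam (f1 φ m r t)) (seg (s, (0 : ℝ)) (s, 1) w.1, w.2) = 0 →
      w ∈ {y : ℝ × EB5 × X5 U | y.2.1 ∈ B5 ∧ (y.1, y.2.2) ∈ mdom φ} := fun w hw hw0 => by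
    obtain ⟨κ, hκ, e1, e2⟩ := (ful_eq_zero hd hw.2.2.2).1 hw0
    refine ⟨hw.2.1, hw.1, cyc_neg hm hde hκ e1
      (q := fun j => m (cl1 w.1, r (w.2.1, w.2.2 (j - k))))
      (fun j => h.mm _ (cl1_mem _) _ (hr.mem _ hw.2.1 _)) fun j => ?_, hw.2.2.2⟩
    have := congrFun e2 j
    simpa only [fam, seg_col, rho_k hk, f1, Pi.add_apply, Pi.smul_apply] using this
  have hM : MPr ρ φ m k t d := by
    refine isPr_shrink hp hs (fun w hw => ?_) (fun γ p b z hw => ?_) hz hΦ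
    · have ho : IsOpen {y : ℝ × EB5 × X5 U | (y.1, y.2.2) ∈ mdom φ} := by
        have a1 : IsOpen {y : ℝ × EB5 × X5 U | y.1 ∈ Ioo (0 : ℝ) 1} :=
          isOpen_Ioo.preimage continuous_fst
        have a2 : IsOpen (⋂ j, {y : ℝ × EB5 × X5 U | φ (y.2.2 j) < 0}) :=
          isOpen_iInter_of_finite fun j =>
            isOpen_lt (h.smooth.continuous.comp (by fun_prop)) continuous_const
        have a3 : IsOpen {y : ℝ × EB5 × X5 U | perp y.2.2 ≠ 0} :=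
          isOpen_ne_fun (continuous_perp.comp (by fun_prop)) continuous_const
        convert a1.inter (a2.inter a3) using 1
        ext y
        simp [mdom]
      exact inter_mem_nhdsWithin _ (ho.mem_nhds hw.2)
    · exact ⟨B5_act _ _ hw.1, hw.2.1, fun j => by
        simpa only [pi5_apply, h.inv] using hw.2.2.1 _, perp_pi5_ne ρ hw.2.2.2⟩
  exact ⟨hM, hn.exc _ _ _ _ _ _ _ _ hp hM hs (fun w hw a _ => hz w hw a) fun w hw => ⟨hΦ w hw, rfl⟩⟩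

theorem stSq : StSq := by
  intro n hn U _ _ _ ρ φ m H wc r h hr
  refine ⟨h.isFld, ?_⟩
  obtain ⟨R, L, C, hL, hC, hR, hLip, hbd⟩ := h.consts
  obtain ⟨t₀, ht₀, hmar⟩ := h.margin
  set A := ‖wc‖ + 1 with hA
  have hA0 : 0 < A := by positivity
  refine ⟨min t₀ (min (1 / (4 * L)) (1 / (80 * A * C))), by positivity, fun t ht => ?_⟩
  obtain ⟨ht0, ht1⟩ := ht
  simp only [lt_min_iff] at ht1
  obtain ⟨e, he, hm⟩ := hmar t ⟨ht0, ht1.1⟩
  refine ⟨min e (1 / (80 * A)), by positivity, fun d hd => ?_⟩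
  obtain ⟨hd0, hd1⟩ := hd
  simp only [lt_min_iff] at hd1
  have htL : t * L ≤ 1 / 4 := by
    have := (lt_div_iff₀ (by positivity)).1 ht1.2.1
    linarith
  have hδ : A * (t * C + d) ≤ 1 / 40 := by
    have a1 := (lt_div_iff₀ (by positivity)).1 ht1.2.2
    have a2 := (lt_div_iff₀ (by positivity)).1 hd1.2
    nlinarith
  have a0 : ∀ {s : ℝ} {k : ZMod 5}, s = 1 ∧ k = 1 ∨ s = 2 ∧ k = 2 → Ad d (f1 φ m r t) (s, 0) := by
    intro s k hk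
    refine ad_of hd0 fun b hb w κ hκ e1 e2 => ?_
    have e3 : ∀ j, w j + κ • perp w j = stp φ t (r (b, w (j - k))) := fun j => by
      have := congrFun e2 j
      simp only [rho_k hk, f1, Pi.add_apply, Pi.smul_apply] at this
      rwa [cl1_of ⟨le_rfl, zero_le_one⟩, h.m0 _ (hr.mem b hb _)] at this
    have e4 := cyc_neg hm hd1.1.le hκ e1 (fun j => hr.mem b hb _) e3
    refine adm_lip ht0.le hL.le htL hκ hLip (k := k) (fun v hv => ?_) (fun j => hR _ (e4 j).le)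
      fun j => ?_
    · have := qlin s (hk.imp And.left And.left) v hv
      rwa [rho_k hk] at this
    · rw [e3 j, hr.fix b hb _ (e4 _).le, stp]
  have a2 : ∀ {s : ℝ} {k : ZMod 5}, s = 1 ∧ k = 1 ∨ s = 2 ∧ k = 2 → ∀ u,
      Ad d (f2 φ H r t) (s, u) := by
    intro s k hk u
    refine ad_of hd0 fun b hb w κ hκ e1 e2 => ?_
    have e3 : ∀ j, w j + κ • perp w j = stp φ t (H (cl1 u, b, r (b, w (j - k)))) := fun j => by
      have := congrFun e2 j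
      simpa only [rho_k hk, f2, Pi.add_apply, Pi.smul_apply] using this
    have e4 := cyc_neg hm hd1.1.le hκ e1
      (fun j => h.hm _ (cl1_mem u) b hb _ (hr.mem b hb _)) e3
    have e5 : ∀ j, ‖wc (w j)‖ ≤ 5 * (1 / 40) := by
      refine half_turn (k := k) fun j => ?_
      obtain ⟨c, hc, e6⟩ := h.key _ (cl1_mem u) b hb _ (e4 (j - k)).le
      refine ⟨c, hc, ?_⟩
      have e7 := e3 j
      rw [hr.fix b hb _ (e4 _).le, stp] at e7
      set x := H (cl1 u, b, w (j - k))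
      have e8 : w j - x = -(t • gradient φ x + κ • perp w j) := by
        linear_combination (norm := module) e7
      rw [← e6, ← map_sub, e8]
      have e9 : ‖t • gradient φ x + κ • perp w j‖ ≤ t * C + d := by
        refine (norm_add_le _ _).trans (add_le_add ?_ (perp_small hκ e1 j))
        rw [norm_smul, Real.norm_of_nonneg ht0.le]
        exact mul_le_mul_of_nonneg_left
          (hbd _ (hR _ (h.hm _ (cl1_mem u) b hb _ (e4 _).le))) ht0.le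
      refine (wc.le_opNorm _).trans ?_
      rw [norm_neg]
      refine le_trans (mul_le_mul (by linarith) e9 (norm_nonneg _) hA0.le) hδ
    refine perp_of_const hκ (c := stp φ t 0) (funext fun j => ?_)
    rw [Pi.add_apply, Pi.smul_apply, e3 j, hr.fix b hb _ (e4 _).le,
      h.axis _ (cl1_mem u) b hb _ (e4 _).le (by linarith [e5 (j - k)])]
  have e12 : ∀ b ∈ B5, ∀ x, f1 φ m r t (1, b, x) = f2 φ H r t (0, b, x) := fun b hb x => by
    simp only [f1, f2]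
    rw [cl1_of ⟨le_rfl, zero_le_one⟩, cl1_of ⟨zero_le_one, le_rfl⟩, h.h0 b hb _ (hr.mem b hb x)]
  have a1 : ∀ {s : ℝ} {k : ZMod 5}, s = 1 ∧ k = 1 ∨ s = 2 ∧ k = 2 → Ad d (f1 φ m r t) (s, 1) := by
    intro s k hk b z hz h0
    refine a2 hk 0 b z hz ?_
    rw [← h0]
    simp only [ful, fam]
    congr 3
    funext j
    exact (e12 b hz.1 _).symm
  have k1 : (1 : ℝ) = 1 ∧ (1 : ZMod 5) = 1 ∨ (1 : ℝ) = 2 ∧ (1 : ZMod 5) = 2 := Or.inl ⟨rfl, rfl⟩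
  have k2 : (2 : ℝ) = 1 ∧ (2 : ZMod 5) = 1 ∨ (2 : ℝ) = 2 ∧ (2 : ZMod 5) = 2 := Or.inr ⟨rfl, rfl⟩
  have p1 := pf1 h hr t hd0
  have p2 := pf2 h hr t hd0
  obtain ⟨m1, c1⟩ := col_eq hn h hr hd0 hm hd1.1.le k1 (a0 k1) (a1 k1)
  obtain ⟨m2, c2⟩ := col_eq hn h hr hd0 hm hd1.1.le k2 (a0 k2) (a1 k2)
  refine ⟨m1, m2, ?_⟩
  have s1 := pc_square hn p1 (a0 k1) (a1 k1) (a0 k2) (a1 k2)
  have s2 := pc_square hn p2 (a2 k1 0) (a2 k1 1) (a2 k2 0) (a2 k2 1)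
  have z1 : pc n ρ d (f2 φ H r t) (1, 0) (1, 1) = 0 :=
    pc_zero hn p2 fun τ _ => by rw [seg_col]; exact a2 k1 τ
  have z2 : pc n ρ d (f2 φ H r t) (2, 0) (2, 1) = 0 :=
    pc_zero hn p2 fun τ _ => by rw [seg_col]; exact a2 k2 τ
  have z3 : pc n ρ d (f2 φ H r t) (1, 1) (2, 1) = 0 := by
    refine pc_zero hn p2 fun τ _ => ?_
    rw [seg_row]
    refine ad_of hd0 fun b hb w κ hκ _ e2 => perp_of_const hκ (c := stp φ t 0) ?_
    rw [e2, ← rho_const (1 + τ) (stp φ t 0)]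
    congr 1
    funext j
    simp only [f2]
    rw [cl1_of ⟨zero_le_one, le_rfl⟩, h.h1 b hb _ (hr.mem b hb _)]
  have r1 := aInv_eq hn p1 (a1 k1) (a1 k2) (f' := fun y => f1 φ m r t (1, y)) fun _ _ _ => rfl
  have r2 := aInv_eq hn p2 (a2 k1 0) (a2 k2 0) (f' := fun y => f1 φ m r t (1, y)) e12
  have r0 := aInv_eq hn p1 (a0 k1) (a0 k2) (f' := push t (fun y => gradient φ y.2) r)
    fun b hb x => by
      simp only [f1, push, stp]
      rw [cl1_of ⟨le_rfl, zero_le_one⟩, h.m0 _ (hr.mem b hb x)]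
  rw [r0, s1, c1, c2, ← r1, r2, s2, z1, z2, z3]
  ring

theorem stB0 (hs : StSq) (hl : StLc) : StB0 := by
  intro n w c hc hn hw hloc U _ _ _ ρ φ m H wc ι pr cc r h hst hwn hr hS hz
  obtain ⟨hf, t₂, ht₂, h2⟩ := hs n hn U ρ φ m H wc r h hr
  obtain ⟨t₀, ht₀, h0⟩ := hz r _ hr hf
  have hw1 : ∀ᶠ t in 𝓝[>] (0 : ℝ), ∀ l j : ZMod 5, l ≠ 0 → j ≠ 0 → ∃ d₁ > 0,
      ∀ d ∈ Ioo (0 : ℝ) d₁, IsLp (rot1 1) (sdom φ (ι l)) (smap φ m (ι l) (pr l) j t d) →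
        w U1 (rot1 1) (sdom φ (ι l)) (smap φ m (ι l) (pr l) j t d) = cc l j := by
    simp only [Filter.eventually_all]
    intro l j hl0 hj0
    obtain ⟨t₁, ht₁, h1⟩ := hwn l j hl0 hj0
    exact Filter.mem_of_superset (Ioo_mem_nhdsGT ht₁) h1
  obtain ⟨t, ⟨a1, a2⟩, a3⟩ := ((hw1.and (Ioo_mem_nhdsGT ht₂ :
    ∀ᶠ t in 𝓝[>] (0 : ℝ), t ∈ Ioo 0 t₂)).and (Ioo_mem_nhdsGT ht₀ :
    ∀ᶠ t in 𝓝[>] (0 : ℝ), t ∈ Ioo 0 t₀)).exists
  obtain ⟨d₂, hd₂, b2⟩ := h2 t a2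
  obtain ⟨d₀, hd₀, b0⟩ := h0 t a3
  have hw2 : ∀ᶠ d in 𝓝[>] (0 : ℝ), ∀ l j : ZMod 5, l ≠ 0 → j ≠ 0 →
      IsLp (rot1 1) (sdom φ (ι l)) (smap φ m (ι l) (pr l) j t d) →
        w U1 (rot1 1) (sdom φ (ι l)) (smap φ m (ι l) (pr l) j t d) = cc l j := by
    refine Filter.eventually_all.2 fun l => Filter.eventually_all.2 fun j =>
      Filter.eventually_all.2 fun hl0 => Filter.eventually_all.2 fun hj0 => ?_
    obtain ⟨d₁, hd₁, h1⟩ := a1 l j hl0 hj0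
    exact Filter.mem_of_superset (Ioo_mem_nhdsGT hd₁) h1
  obtain ⟨d, ⟨c1, c2⟩, c3⟩ := ((hw2.and (Ioo_mem_nhdsGT hd₂ :
    ∀ᶠ d in 𝓝[>] (0 : ℝ), d ∈ Ioo 0 d₂)).and (Ioo_mem_nhdsGT hd₀ :
    ∀ᶠ d in 𝓝[>] (0 : ℝ), d ∈ Ioo 0 d₀)).exists
  obtain ⟨m1, m2, e1⟩ := b2 d c2
  have e2 := hl n w c hw hloc U ρ φ m H wc ι pr cc 1 t d (by decide) c2.1 h hst m1 c1
  have e3 := hl n w c hw hloc U ρ φ m H wc ι pr cc 2 t d (by decide) c2.1 h hst m2 c1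
  rw [b0 d c3, e2, e3] at e1
  have e4 : (3 : ZMod 5) * (c * ∑ l : ZMod 5, ∑ j : ZMod 5,
      if l ≠ 0 then j ^ 2 * cc l j else 0) = 0 := by linear_combination -e1
  haveI : Fact (Nat.Prime 5) := ⟨by norm_num⟩
  exact mul_ne_zero (by decide) (mul_ne_zero hc hS) e4

end Vale.Agent.P220Z.Tb
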