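import Vale.Agent.P220Z.Deg.Lin

/-!
# P220, the degree of a chain of coverings in the plane, and the sum over the words
-/

open Set Topology

namespace Vale.Agent.P220Z.Tb

open Vale.Agent.P220Z.Deg Vale.Agent.P205.TI.Deg

section Box

variable {X : Type} [NormedAddCommGroup X] [NormedSpace ℝ X] [FiniteDimensional ℝ X]

omit [NormedSpace ℝ X] [FiniteDimensional ℝ X] in
theorem germ_box {Y : Type} [NormedAddCommGroup Y] {D K : Set X} (hD : IsOpen D)
    (hK : IsCompact K) (hDK : D ⊆ K) {f : X → Y} (hf : ContinuousOn f K)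
    (hz : ∀ x ∈ K, f x = 0 → x ∈ D) : Germ D f := by
  refine ⟨hD, hf.mono hDK, ?_⟩
  have h := hK.of_isClosed_subset
    (hf.preimage_isClosed_of_isClosed hK.isClosed (isClosed_singleton (x := 0))) inter_subset_left
  convert h using 1
  exact Set.ext fun x => ⟨fun hx => ⟨hDK hx.1, hx.2⟩, fun hx => ⟨hz x hx.1 hx.2, hx.2⟩⟩

/-- homotopy invariance, if the zeros in the compact set `K` lie in the open subset `D` -/
theorem pdeg_box {D K : Set X} (hD : IsOpen D) (hK : IsCompact K) (hDK : D ⊆ K)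
    {F : ℝ × X → X} (hF : ContinuousOn F (Icc (0 : ℝ) 1 ×ˢ K))
    (hz : ∀ t ∈ Icc (0 : ℝ) 1, ∀ x ∈ K, F (t, x) = 0 → x ∈ D) :
    pdeg D (fun x => F (0, x)) = pdeg D fun x => F (1, x) := by
  refine pdeg_htpy' hD (hF.mono (prod_mono subset_rfl hDK)) ?_
  have hc := (isCompact_Icc (a := (0 : ℝ)) (b := 1)).prod hK
  have h := hc.of_isClosed_subset
    (hF.preimage_isClosed_of_isClosed hc.isClosed (isClosed_singleton (x := 0))) inter_subset_left
  convert h using 1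
  exact Set.ext fun p => ⟨fun hp => ⟨⟨hp.2.1, hDK hp.1⟩, hp.2.2⟩,
    fun hp => ⟨hz p.1 hp.1.1 p.2 hp.1.2 hp.2, hp.1.1, hp.2⟩⟩

end Box

section Cover

variable {X : Type} [NormedAddCommGroup X] [NormedSpace ℝ X]

/-- A chain of coverings: `u 0`, `u 1` are the coordinates; at the ends of the interval number
`n + 1` the function `u (n + 2)` lies on opposite sides of the interval number `n + 2`. -/
structure Cover (J : (ℝ × ℝ) ≃L[ℝ] X) (u : ℕ → X → ℝ) (l r s : ℕ → ℝ) (N : ℕ) : Prop where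
  cont : ∀ n, Continuous (u n)
  u0 : ∀ q, u 0 (J q) = q.1
  u1 : ∀ q, u 1 (J q) = q.2
  lt : ∀ n, l n < r n
  ne : ∀ n, s n ≠ 0
  lo : ∀ n < N, ∀ p, (∀ k ≤ n, u k p ∈ Icc (l k) (r k)) → u (n + 1) p = l (n + 1) →
    ∀ y ∈ Icc (l (n + 2)) (r (n + 2)), s (n + 1) * (u (n + 2) p - y) < 0
  hi : ∀ n < N, ∀ p, (∀ k ≤ n, u k p ∈ Icc (l k) (r k)) → u (n + 1) p = r (n + 1) →
    ∀ y ∈ Icc (l (n + 2)) (r (n + 2)), 0 < s (n + 1) * (u (n + 2) p - y)

/-- the open box of a chain -/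
def box (u : ℕ → X → ℝ) (l r : ℕ → ℝ) (N : ℕ) : Set X := {p | ∀ k ≤ N, u k p ∈ Ioo (l k) (r k)}

/-- the closed box of a chain -/
def cbox (u : ℕ → X → ℝ) (l r : ℕ → ℝ) (N : ℕ) : Set X := {p | ∀ k ≤ N, u k p ∈ Icc (l k) (r k)}

variable {J : (ℝ × ℝ) ≃L[ℝ] X} {u : ℕ → X → ℝ} {l r s : ℕ → ℝ} {N : ℕ}

omit [NormedAddCommGroup X] [NormedSpace ℝ X] in
theorem box_sub (n : ℕ) : box u l r n ⊆ cbox u l r n :=
  fun _ hp k hk => Ioo_subset_Icc_self (hp k hk)

theorem Cover.isOpen (h : Cover J u l r s N) (n : ℕ) : IsOpen (box u l r n) := by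
  have : box u l r n = ⋂ k ∈ Finset.range (n + 1), u k ⁻¹' Ioo (l k) (r k) := by
    ext p
    simp [box]
  rw [this]
  exact isOpen_biInter_finset fun k _ => isOpen_Ioo.preimage (h.cont k)

theorem Cover.isCompact (h : Cover J u l r s N) (n : ℕ) : IsCompact (cbox u l r (n + 1)) := by
  have h1 : IsClosed (cbox u l r (n + 1)) := by
    have : cbox u l r (n + 1) = ⋂ k, ⋂ (_ : k ≤ n + 1), u k ⁻¹' Icc (l k) (r k) := by
      ext p
      simp [cbox]
    rw [this]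
    exact isClosed_iInter fun k => isClosed_iInter fun _ => isClosed_Icc.preimage (h.cont k)
  refine (((isCompact_Icc (a := l 0) (b := r 0)).prod
    (isCompact_Icc (a := l 1) (b := r 1))).image J.continuous).of_isClosed_subset h1 fun p hp => ?_
  obtain ⟨q, rfl⟩ := J.surjective p
  exact ⟨q, ⟨h.u0 q ▸ hp 0 (by omega), h.u1 q ▸ hp 1 (by omega)⟩, rfl⟩

theorem Cover.inner (h : Cover J u l r s N) {n : ℕ} (hn : n < N) {p : X}
    (hp : p ∈ cbox u l r (n + 1)) (hy : u (n + 2) p ∈ Icc (l (n + 2)) (r (n + 2))) :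
    u (n + 1) p ∈ Ioo (l (n + 1)) (r (n + 1)) := by
  have h1 := hp (n + 1) le_rfl
  refine ⟨h1.1.lt_of_ne fun e => ?_, h1.2.lt_of_ne fun e => ?_⟩
  · simpa using h.lo n hn p (fun k hk => hp k (by omega)) e.symm _ hy
  · simpa using h.hi n hn p (fun k hk => hp k (by omega)) e _ hy

theorem Cover.mem_box (h : Cover J u l r s N) {n : ℕ} (hn : n < N) {p : X}
    (hp : p ∈ cbox u l r (n + 1)) (h0 : u 0 p ∈ Ioo (l 0) (r 0))
    (h1 : u (n + 1) p ∈ Ioo (l (n + 1)) (r (n + 1))) : p ∈ box u l r (n + 1) := by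
  intro k hk
  rcases k with _ | k
  · exact h0
  rcases (Nat.le_of_succ_le_succ hk).lt_or_eq with h2 | rfl
  · exact h.inner (by omega) (fun j hj => hp j (by omega)) (hp (k + 2) (by omega))
  · exact h1

/-- the midpoint -/
noncomputable def mid (l r : ℕ → ℝ) (n : ℕ) : ℝ := (l n + r n) / 2

theorem Cover.mid_mem (h : Cover J u l r s N) (n : ℕ) : mid l r n ∈ Ioo (l n) (r n) := by
  have := h.lt n
  constructor <;> (rw [mid]; linarith)

variable [FiniteDimensional ℝ X]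

theorem Cover.step (h : Cover J u l r s N) {n : ℕ} (hn : n < N) {σ y : ℝ} (hσ : σ ≠ 0)
    (hy : y ∈ Icc (l (n + 2)) (r (n + 2))) :
    Germ (box u l r (n + 1)) (fun p => J (u 0 p - mid l r 0, σ * (u (n + 2) p - y))) ∧
    pdeg (box u l r (n + 1)) (fun p => J (u 0 p - mid l r 0, σ * (u (n + 2) p - y))) =
      pdeg (box u l r (n + 1))
        fun p => J (u 0 p - mid l r 0, σ * s (n + 1) * (u (n + 1) p - mid l r (n + 1))) := by
  have c0 := h.cont 0
  have c1 := h.cont (n + 1)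
  have c2 := h.cont (n + 2)
  have key : ∀ t ∈ Icc (0 : ℝ) 1, ∀ p ∈ cbox u l r (n + 1), J (u 0 p - mid l r 0,
      σ * ((1 - t) * (u (n + 2) p - y) + t * s (n + 1) * (u (n + 1) p - mid l r (n + 1)))) = 0 →
      p ∈ box u l r (n + 1) := by
    intro t ht p hp h0
    rw [J.map_eq_zero_iff, Prod.mk_eq_zero, sub_eq_zero, mul_eq_zero] at h0
    have h2 := h0.2.resolve_left hσ
    have h3 := hp (n + 1) le_rfl
    have h4 := h.mid_mem (n + 1)
    have h5 : 0 < s (n + 1) * s (n + 1) := mul_self_pos.2 (h.ne _)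
    have h6 : (1 - t) * (s (n + 1) * (u (n + 2) p - y)) +
        t * (s (n + 1) * s (n + 1) * (u (n + 1) p - mid l r (n + 1))) = 0 := by
      linear_combination s (n + 1) * h2
    refine h.mem_box hn hp (h0.1 ▸ h.mid_mem 0)
      ⟨h3.1.lt_of_ne fun e => ?_, h3.2.lt_of_ne fun e => ?_⟩
    · have h7 := h.lo n hn p (fun k hk => hp k (by omega)) e.symm y hy
      have h8 := mul_neg_of_pos_of_neg h5 (sub_neg.2 (e ▸ h4.1))
      exact (convex_Iio (𝕜 := ℝ) (0 : ℝ) h7 h8 (sub_nonneg.2 ht.2) ht.1 (by ring)).ne h6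
    · have h7 := h.hi n hn p (fun k hk => hp k (by omega)) e y hy
      have h8 := mul_pos h5 (sub_pos.2 (e ▸ h4.2))
      exact (convex_Ioi (𝕜 := ℝ) (0 : ℝ) h7 h8 (sub_nonneg.2 ht.2) ht.1 (by ring)).ne' h6
  refine ⟨germ_box (h.isOpen _) (h.isCompact n) (box_sub _) (by fun_prop) fun p hp h0 =>
    key 0 ⟨le_rfl, zero_le_one⟩ p hp (by simpa using h0), ?_⟩
  have := pdeg_box (h.isOpen _) (h.isCompact n) (box_sub _) (F := fun q : ℝ × X =>
    J (u 0 q.2 - mid l r 0, σ * ((1 - q.1) * (u (n + 2) q.2 - y) +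
      q.1 * s (n + 1) * (u (n + 1) q.2 - mid l r (n + 1))))) (by fun_prop) key
  simpa [mul_assoc] using this

theorem Cover.base (h : Cover J u l r s N) {σ : ℝ} (hσ : σ ≠ 0) :
    pdeg (box u l r 1) (fun p => J (u 0 p - mid l r 0, σ * (u 1 p - mid l r 1))) = sg σ := by
  set L : ℝ × ℝ →L[ℝ] ℝ × ℝ :=
    (ContinuousLinearMap.id ℝ ℝ).prodMap (σ • ContinuousLinearMap.id ℝ ℝ)
  have hd : (L : ℝ × ℝ →ₗ[ℝ] ℝ × ℝ).det = σ := by
    have := LinearMap.det_prodMap (LinearMap.id (R := ℝ) (M := ℝ))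
      (σ • LinearMap.id (R := ℝ) (M := ℝ))
    exact this.trans (by simp)
  have hd' : ((J : ℝ × ℝ →L[ℝ] X).comp (L.comp (J.symm : X →L[ℝ] ℝ × ℝ))).det = σ := by
    rw [← hd]
    exact LinearMap.det_conj (L : ℝ × ℝ →ₗ[ℝ] ℝ × ℝ) J.toLinearEquiv
  have hz : J (mid l r 0, mid l r 1) ∈ box u l r 1 := by
    intro k hk
    interval_cases k
    · rw [h.u0]
      exact h.mid_mem 0
    · rw [h.u1]
      exact h.mid_mem 1
  have := pdeg_affine (h.isOpen 1) hz (hd'.trans_ne hσ)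
  rw [hd'] at this
  rw [← this]
  congr 1
  funext p
  obtain ⟨q, rfl⟩ := J.surjective p
  rw [h.u0, h.u1, ← map_sub]
  simp [L, Prod.ext_iff]

theorem Cover.chain (h : Cover J u l r s N) {n : ℕ} (hn : n ≤ N) {σ : ℝ} (hσ : σ ≠ 0) :
    pdeg (box u l r (n + 1))
      (fun p => J (u 0 p - mid l r 0, σ * (u (n + 1) p - mid l r (n + 1)))) =
      sg (σ * ∏ k ∈ Finset.range n, s (k + 1)) := by
  induction n generalizing σ with
  | zero => simpa using h.base hσ
  | succ n ih =>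
    obtain ⟨h1, h2⟩ := h.step (n := n) hn hσ (Ioo_subset_Icc_self (h.mid_mem (n + 2)))
    rw [pdeg_mono h1 (h.isOpen _) (fun p hp k hk => hp k (by omega)) fun p hp h0 k hk => ?_, h2,
      ih (by omega) (mul_ne_zero hσ (h.ne _)), Finset.prod_range_succ]
    · congr 1
      ring
    · rcases hk.lt_or_eq with h3 | rfl
      · exact hp k (by omega)
      · rw [J.map_eq_zero_iff, Prod.mk_eq_zero, mul_eq_zero, sub_eq_zero, sub_eq_zero] at h0
        rw [h0.2.resolve_left hσ]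
        exact h.mid_mem _

/-- the degree of the equation of a closed chain -/
theorem Cover.deg (h : Cover J u l r s (N + 1)) (e0 : l (N + 1) = l 0 ∧ r (N + 1) = r 0)
    (e1 : l (N + 2) = l 1 ∧ r (N + 2) = r 1) :
    Germ (box u l r (N + 1)) (fun p => J (u 0 p - u (N + 1) p, u 1 p - u (N + 2) p)) ∧
    pdeg (box u l r (N + 1)) (fun p => J (u 0 p - u (N + 1) p, u 1 p - u (N + 2) p)) =
      sg (-∏ k ∈ Finset.range (N + 1), s (k + 1)) := by
  have c0 := h.cont 0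
  have c1 := h.cont 1
  have c2 := h.cont (N + 1)
  have c3 := h.cont (N + 2)
  have key : ∀ t ∈ Icc (0 : ℝ) 1, ∀ p ∈ cbox u l r (N + 1),
      J (u 0 p - ((1 - t) * u (N + 1) p + t * mid l r 0),
        (1 - t) * u 1 p + t * mid l r 1 - u (N + 2) p) = 0 → p ∈ box u l r (N + 1) := by
    intro t ht p hp h0
    rw [J.map_eq_zero_iff, Prod.mk_eq_zero, sub_eq_zero, sub_eq_zero] at h0
    have h1 := h.inner (Nat.lt_succ_self N) hp (by
      rw [← h0.2, e1.1, e1.2]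
      exact convex_Icc _ _ (hp 1 (by omega)) (Ioo_subset_Icc_self (h.mid_mem 1))
        (sub_nonneg.2 ht.2) ht.1 (by ring))
    refine h.mem_box (Nat.lt_succ_self N) hp ?_ h1
    rw [e0.1, e0.2] at h1
    rw [h0.1]
    exact convex_Ioo _ _ h1 (h.mid_mem 0) (sub_nonneg.2 ht.2) ht.1 (by ring)
  refine ⟨germ_box (h.isOpen _) (h.isCompact N) (box_sub _) (by fun_prop) fun p hp h0 =>
    key 0 ⟨le_rfl, zero_le_one⟩ p hp (by simpa using h0), ?_⟩
  have h1 := pdeg_box (h.isOpen _) (h.isCompact N) (box_sub _) (F := fun q : ℝ × X =>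
    J (u 0 q.2 - ((1 - q.1) * u (N + 1) q.2 + q.1 * mid l r 0),
      (1 - q.1) * u 1 q.2 + q.1 * mid l r 1 - u (N + 2) q.2)) (by fun_prop) key
  have h2 := (h.step (Nat.lt_succ_self N) (σ := -1) (y := mid l r 1) (by norm_num)
    (by rw [e1.1, e1.2]; exact Ioo_subset_Icc_self (h.mid_mem 1))).2
  rw [h.chain (Nat.le_succ N) (mul_ne_zero (by norm_num) (h.ne _))] at h2
  rw [Finset.prod_range_succ, show -((∏ k ∈ Finset.range N, s (k + 1)) * s (N + 1)) =
    -1 * s (N + 1) * ∏ k ∈ Finset.range N, s (k + 1) by ring, ← h2]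
  simpa using h1

end Cover

end Vale.Agent.P220Z.Tb
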